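import Vale.Agent.P158.T1.Peierls2

/-! Peierls estimates: annuli, finiteness of balls, good windows. -/

namespace Vale.Agent.P158.T1.Pe

open Filter MeasureTheory ProbabilityTheory
open scoped ENNReal

/-! ### Walk decompositions -/

/-- Last visit of a set. -/
theorem exists_last {A : Set V} {x y : V} (p : latt.Walk x y) (hy : y ∉ A)
    (hx : ∃ z ∈ p.support, z ∈ A) :
    ∃ (u v : V) (h : latt.Adj u v) (q₁ : latt.Walk x u) (q₂ : latt.Walk v y), u ∈ A ∧ v ∉ A ∧
      p = q₁.append (SimpleGraph.Walk.cons h q₂) ∧ ∀ z ∈ q₂.support, z ∉ A := by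
  induction p with
  | nil =>
    obtain ⟨z, hz, hzA⟩ := hx
    simp only [SimpleGraph.Walk.support_nil, List.mem_singleton] at hz
    subst hz
    exact absurd hzA hy
  | cons h p ih =>
    rename_i a b c
    by_cases h' : ∃ z ∈ p.support, z ∈ A
    · obtain ⟨u, v, huv, q₁, q₂, hu, hv, hp, hq⟩ := ih hy h'
      exact ⟨u, v, huv, SimpleGraph.Walk.cons h q₁, q₂, hu, hv, by
        rw [SimpleGraph.Walk.cons_append, ← hp], hq⟩
    · push Not at h'
      obtain ⟨z, hz, hzA⟩ := hx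
      rw [SimpleGraph.Walk.support_cons, List.mem_cons] at hz
      rcases hz with rfl | hz
      · exact ⟨z, b, h, SimpleGraph.Walk.nil, p, hzA, h' b p.start_mem_support, rfl, h'⟩
      · exact absurd hzA (h' z hz)

theorem mem_bx_of_walk {z x y : V} {k : ℕ} (p : latt.Walk x y) (hx : x ∈ bx z k) :
    y ∈ bx z (k + p.length) := by
  induction p generalizing k with
  | nil => simpa using hx
  | cons h p ih =>
    have := ih (bx_adj h hx)
    rw [SimpleGraph.Walk.length_cons]
    convert this using 2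
    ring

theorem mem_of_mem_pe {x y z : V} {p : latt.Walk x y} {e : latt.edgeSet} (he : e ∈ pe p)
    (hz : z ∈ e.1) : z ∈ p.support := by
  rw [mem_pe] at he
  obtain ⟨d, hd, rfl⟩ := he
  have hz' : z = d.fst ∨ z = d.snd := by
    have : z ∈ s(d.fst, d.snd) := hz
    simpa using this
  rcases hz' with rfl | rfl
  · exact p.dart_fst_mem_support_of_mem_darts hd
  · exact p.dart_snd_mem_support_of_mem_darts hd

/-- A crossing of an annulus contains a path of length `s - r` in the annulus which starts at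
the inner boundary. -/
theorem exists_crossing {z x y : V} {r s : ℕ} (hrs : r < s) (p : latt.Walk x y)
    (hx : x ∈ bx z r) (hy : y ∉ bx z s) :
    ∃ (x' y' : V) (p' : latt.Walk x' y'), x' ∈ bxF z (r + 1) \ bxF z r ∧ p'.IsPath ∧
      p'.length = s - r ∧ ∀ e ∈ pe p', e ∈ pe p ∧ e ∉ tE z r ∧ e ∈ tE z s := by
  obtain ⟨y₁, p₁, p₂, hp, hy₁, hE⟩ := exists_exit p (bx_mono hrs.le hx) hy
  have hy₁' : y₁ ∉ bx z r := fun h => hy₁ (bx_mono hrs.le h)
  obtain ⟨u, v, h, q₁, q₂, hu, hv, hp₁, hq⟩ :=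
    exists_last p₁ hy₁' ⟨x, p₁.start_mem_support, hx⟩
  have hv1 : v ∈ bx z (r + 1) := bx_adj h hu
  have hlen : s - r ≤ q₂.bypass.length := by
    by_contra hlt
    push Not at hlt
    have := mem_bx_of_walk q₂.bypass hv1
    exact hy₁ (bx_mono (by omega) this)
  refine ⟨v, _, q₂.bypass.take (s - r), ?_, q₂.bypass_isPath.take _, ?_, ?_⟩
  · rw [Finset.mem_sdiff, mem_bxF, mem_bxF]
    exact ⟨hv1, hv⟩
  · rw [SimpleGraph.Walk.take_length]
    exact min_eq_left hlen
  · intro e he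
    have h1 : e ∈ pe q₂ := by
      apply pe_bypass_subset
      rw [mem_pe] at he ⊢
      obtain ⟨d, hd, rfl⟩ := he
      rw [SimpleGraph.Walk.darts_take] at hd
      exact ⟨d, List.mem_of_mem_take hd, rfl⟩
    have h2 : e ∈ pe p₁ := by
      rw [hp₁, pe_append, Finset.mem_union]
      right
      rw [mem_pe] at h1 ⊢
      obtain ⟨d, hd, rfl⟩ := h1
      exact ⟨d, by rw [SimpleGraph.Walk.darts_cons]; exact List.mem_cons_of_mem _ hd, rfl⟩
    refine ⟨?_, ?_, hE e h2⟩
    · rw [hp, pe_append, Finset.mem_union]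
      exact Or.inl h2
    · rintro ⟨w, hw, hw'⟩
      exact hq w (mem_of_mem_pe h1 hw) hw'

variable {G : Measure ℝ} [IsProbabilityMeasure G] {β : ℝ}

/-- Peierls estimate for annuli. -/
theorem peierls (G : Measure ℝ) [IsProbabilityMeasure G] : PeierlsStmt G := by
  classical
  intro β hβ
  refine ⟨16, 3 / 4, by norm_num, by norm_num, by norm_num, ?_⟩
  intro z r s hrs
  rcases hrs.eq_or_lt with rfl | hrs
  · have : {t : Env | ¬ AG β t z r r} = ∅ := by
      ext t
      simp only [Set.mem_ofPred_eq, Set.mem_empty_iff_false, iff_false, not_not]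
      intro x y p _ _
      omega
    rw [this, measure_empty]
    exact zero_le
  · have hsub : {t : Env | ¬ AG β t z r s} ⊆ ⋃ x ∈ bxF z (r + 1) \ bxF z r,
        {t | ∃ (y : V) (p : latt.Walk x y), p.IsPath ∧ p.length = s - r ∧
          8 * nh β t (pe p) < s - r} := by
      intro t ht
      have ht' : ¬ AG β t z r s := ht
      unfold AG at ht'
      push Not at ht'
      obtain ⟨x, y, p, hx, hy, hlt⟩ := ht'
      obtain ⟨x', y', p', hx', hp', hl, he⟩ := exists_crossing hrs p hx hy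
      rw [Set.mem_iUnion₂]
      refine ⟨x', hx', y', p', hp', hl, ?_⟩
      have h1 : nh β t (pe p') ≤ (hv β t z r s p).card := by
        refine Finset.card_le_card fun e hm => ?_
        rw [Finset.mem_filter] at hm
        unfold hv
        rw [Finset.mem_filter]
        obtain ⟨a1, a2, a3⟩ := he e hm.1
        exact ⟨a1, a2, a3, hm.2⟩
      omega
    calc PG G {t : Env | ¬ AG β t z r s} ≤ _ := measure_mono hsub
      _ ≤ ∑ x ∈ bxF z (r + 1) \ bxF z r, PG G {t | ∃ (y : V) (p : latt.Walk x y), p.IsPath ∧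
          p.length = s - r ∧ 8 * nh β t (pe p) < s - r} := measure_biUnion_finset_le _ _
      _ ≤ ∑ _x ∈ bxF z (r + 1) \ bxF z r, ENNReal.ofReal (2 * (3 / 4) ^ (s - r)) :=
          Finset.sum_le_sum fun x _ => peierls_path hβ x _
      _ = ENNReal.ofReal (16 * (r + 1) * (3 / 4) ^ (s - r)) := by
          rw [Finset.sum_const, card_ring, nsmul_eq_mul, ← ENNReal.ofReal_natCast,
            ← ENNReal.ofReal_mul (by positivity)]
          congr 1
          push_cast
          ring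

/-- Tail of the Peierls estimate. -/
theorem peierls_tail (hβ : G (Set.Iio β) ≤ 1 / 16) (x : V) (ℓ : ℕ) :
    PG G {t | ∃ (y : V) (p : latt.Walk x y), p.IsPath ∧ ℓ ≤ p.length ∧
      8 * nh β t (pe p) < p.length} ≤ ENNReal.ofReal (8 * (3 / 4) ^ ℓ) := by
  have hsub : {t : Env | ∃ (y : V) (p : latt.Walk x y), p.IsPath ∧ ℓ ≤ p.length ∧
      8 * nh β t (pe p) < p.length} ⊆ ⋃ j : ℕ, {t | ∃ (y : V) (p : latt.Walk x y), p.IsPath ∧
        p.length = ℓ + j ∧ 8 * nh β t (pe p) < ℓ + j} := by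
    rintro t ⟨y, p, hp, hl, ht⟩
    rw [Set.mem_iUnion]
    exact ⟨p.length - ℓ, y, p, hp, by omega, by omega⟩
  calc _ ≤ _ := measure_mono hsub
    _ ≤ ∑' j : ℕ, PG G {t | ∃ (y : V) (p : latt.Walk x y), p.IsPath ∧
        p.length = ℓ + j ∧ 8 * nh β t (pe p) < ℓ + j} := measure_iUnion_le _
    _ ≤ ∑' j : ℕ, ENNReal.ofReal (2 * (3 / 4) ^ (ℓ + j)) :=
        ENNReal.tsum_le_tsum fun j => peierls_path hβ x _
    _ = ENNReal.ofReal (8 * (3 / 4) ^ ℓ) := by
        rw [← ENNReal.ofReal_tsum_of_nonneg (fun j => by positivity)]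
        · congr 1
          have : ∀ j : ℕ, (2 : ℝ) * (3 / 4) ^ (ℓ + j) = 2 * (3 / 4) ^ ℓ * (3 / 4) ^ j := by
            intro j; rw [pow_add]; ring
          simp only [this]
          rw [tsum_mul_left, tsum_geometric_of_lt_one (by norm_num) (by norm_num)]
          ring
        · have : (fun j : ℕ => (2 : ℝ) * (3 / 4) ^ (ℓ + j)) =
              fun j => 2 * (3 / 4) ^ ℓ * (3 / 4) ^ j := by
            funext j; rw [pow_add]; ring
          rw [this]
          exact (summable_geometric_of_lt_one (by norm_num) (by norm_num)).mul_left _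

/-- Almost surely long paths from `x` are heavy. -/
theorem ae_long_heavy (hβ : G (Set.Iio β) ≤ 1 / 16) (x : V) :
    ∀ᵐ t ∂PG G, ∃ ℓ : ℕ, ∀ (y : V) (p : latt.Walk x y), p.IsPath → ℓ ≤ p.length →
      p.length ≤ 8 * nh β t (pe p) := by
  rw [ae_iff]
  have h0 : ∀ ℓ : ℕ, PG G {t | ¬ ∃ ℓ : ℕ, ∀ (y : V) (p : latt.Walk x y), p.IsPath →
      ℓ ≤ p.length → p.length ≤ 8 * nh β t (pe p)} ≤ ENNReal.ofReal (8 * (3 / 4) ^ ℓ) := by
    intro ℓ
    refine (measure_mono ?_).trans (peierls_tail hβ x ℓ)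
    intro t ht
    have ht' : ¬ ∃ ℓ : ℕ, ∀ (y : V) (p : latt.Walk x y), p.IsPath →
      ℓ ≤ p.length → p.length ≤ 8 * nh β t (pe p) := ht
    push Not at ht'
    obtain ⟨y, p, hp, hl, hlt⟩ := ht' ℓ
    exact ⟨y, p, hp, hl, hlt⟩
  refine le_antisymm ?_ zero_le
  refine ge_of_tendsto' (x := atTop (α := ℕ)) ?_ h0
  rw [← ENNReal.ofReal_zero]
  refine ENNReal.tendsto_ofReal ?_
  have : Tendsto (fun ℓ : ℕ => (8 : ℝ) * (3 / 4) ^ ℓ) atTop (nhds (8 * 0)) :=
    (tendsto_pow_atTop_nhds_zero_of_lt_one (by norm_num) (by norm_num)).const_mul 8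
  simpa using this

theorem nh_le_ww {t : Env} (ht : ∀ e, 0 < t e) {x y : V} (p : latt.Walk x y) :
    β * nh β t (pe p) ≤ ww (wt t) p := by
  classical
  exact heavy_le_ww ht p (Finset.filter_subset _ _) fun e he => (Finset.mem_filter.1 he).2

/-- Balls are finite, almost surely. -/
theorem ae_FB [NullSingletonClass G] (hG : G (Set.Iio 0) = 0) (hβ0 : 0 < β)
    (hβ : G (Set.Iio β) ≤ 1 / 16) : ∀ᵐ t ∂PG G, FB (wt t) := by
  filter_upwards [ae_pos G hG, ae_long_heavy hβ 0] with t ht hlong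
  obtain ⟨ℓ, hℓ⟩ := hlong
  have hw := adm_of_pos ht
  intro s
  obtain ⟨N, hN⟩ := exists_nat_gt (8 * (s + 1) / β)
  refine (bx_finite 0 (max ℓ N)).subset ?_
  intro z hz
  have hz' : T (wt t) 0 z ≤ s := hz
  by_contra hnot
  obtain ⟨p, -, hp⟩ := exists_walk hw (conn_univ 0 z) one_pos
  have hp' : ww (wt t) p < s + 1 := by
    have : PT (wt t) Set.univ 0 z = T (wt t) 0 z := rfl
    linarith
  have hlen : max ℓ N < p.bypass.length := by
    by_contra hlt
    push Not at hlt
    have h1 := mem_bx_of_walk (k := 0) (z := (0 : V)) p.bypass (center_mem 0 0)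
    rw [zero_add] at h1
    exact hnot (bx_mono hlt h1)
  have h1 := hℓ z p.bypass p.bypass_isPath ((le_max_left _ _).trans hlen.le)
  have h2 := nh_le_ww (β := β) ht p.bypass
  have h3 := ww_bypass_le hw p
  have h4 : (N : ℝ) < p.bypass.length := by
    exact_mod_cast (le_max_right ℓ N).trans_lt hlen
  have h5 : (p.bypass.length : ℝ) ≤ 8 * nh β t (pe p.bypass) := by exact_mod_cast h1
  rw [div_lt_iff₀ hβ0] at hN
  nlinarith

/-- Low levels have small mass. -/
theorem exists_level [NullSingletonClass G] (hG : G (Set.Iio 0) = 0) {η : ℝ≥0∞} (hη : 0 < η) :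
    ∃ β : ℝ, 0 < β ∧ G (Set.Iio β) ≤ η := by
  have h0 : G (Set.Iic 0) = 0 := by
    rw [← Set.Iio_union_right, measure_union_null_iff]
    exact ⟨hG, measure_singleton _⟩
  have hanti : Antitone fun n : ℕ => Set.Iio (1 / ((n : ℝ) + 1)) := by
    intro n m hnm x hx
    have hx' : x < 1 / ((m : ℝ) + 1) := hx
    refine lt_of_lt_of_le hx' ?_
    have : (n : ℝ) ≤ m := by exact_mod_cast hnm
    exact one_div_le_one_div_of_le (by positivity) (by linarith)
  have hinter : (⋂ n : ℕ, Set.Iio (1 / ((n : ℝ) + 1))) = Set.Iic 0 := by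
    ext x
    simp only [Set.mem_iInter, Set.mem_Iio, Set.mem_Iic]
    constructor
    · intro h
      by_contra hx
      push Not at hx
      obtain ⟨n, hn⟩ := exists_nat_one_div_lt hx
      exact absurd (h n) (not_lt.2 hn.le)
    · intro h n
      exact lt_of_le_of_lt h (by positivity)
  have ht := tendsto_measure_iInter_atTop (μ := G)
    (fun n : ℕ => (measurableSet_Iio (a := 1 / ((n : ℝ) + 1))).nullMeasurableSet) hanti
    ⟨0, measure_ne_top _ _⟩
  rw [hinter, h0] at ht
  obtain ⟨n, hn⟩ := ((tendsto_order.1 ht).2 η hη).exists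
  exact ⟨1 / ((n : ℝ) + 1), by positivity, hn.le⟩

/-- Levels exist. -/
theorem exists_lev [NullSingletonClass G] (hG : G (Set.Iio 0) = 0) : ∃ α β : ℝ, Lev G α β := by
  obtain ⟨β, hβ, h⟩ := exists_level (G := G) hG (η := 1 / 16) (by norm_num)
  exact ⟨β / 2, β, by linarith, by linarith, h⟩

/-- Markov for sums over boundedly many edges. -/
theorem markov_sum (hG : ∫⁻ s, ENNReal.ofReal s ∂G ≠ ∞) (N : ℕ) {η : ℝ} (hη : 0 < η) :
    ∃ D : ℝ, 0 < D ∧ ∀ s : Finset latt.edgeSet, s.card ≤ N →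
      PG G {t | D < ∑ e ∈ s, t e} ≤ ENNReal.ofReal η := by
  set m := (∫⁻ s, ENNReal.ofReal s ∂G).toReal with hm
  have hm0 : 0 ≤ m := ENNReal.toReal_nonneg
  refine ⟨(N * m + 1) / η, by positivity, ?_⟩
  intro s hs
  have hmeas : Measurable fun t : Env => ∑ e ∈ s, ENNReal.ofReal (t e) :=
    Finset.measurable_sum _ fun e _ => ENNReal.measurable_ofReal.comp (measurable_pi_apply e)
  have hint : ∫⁻ t, ∑ e ∈ s, ENNReal.ofReal (t e) ∂PG G ≤ ENNReal.ofReal (N * m) := by
    have hmm : ∀ e ∈ s, Measurable fun t : Env => ENNReal.ofReal (t e) := fun e _ =>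
      ENNReal.measurable_ofReal.comp (measurable_pi_apply e)
    rw [lintegral_finsetSum _ hmm]
    have h1 : ∀ e ∈ s, ∫⁻ t : Env, ENNReal.ofReal (t e) ∂PG G = ENNReal.ofReal m := by
      intro e _
      have hmp : MeasurePreserving (fun t : Env => t e) (PG G) G :=
        measurePreserving_eval_infinitePi (fun _ : latt.edgeSet => G) e
      rw [hmp.lintegral_comp ENNReal.measurable_ofReal, hm, ENNReal.ofReal_toReal hG]
    rw [Finset.sum_congr rfl h1, Finset.sum_const, nsmul_eq_mul, ← ENNReal.ofReal_natCast,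
      ← ENNReal.ofReal_mul (by positivity)]
    refine ENNReal.ofReal_le_ofReal ?_
    have : (s.card : ℝ) ≤ N := by exact_mod_cast hs
    exact mul_le_mul_of_nonneg_right this hm0
  have hD : (0 : ℝ) < (N * m + 1) / η := by positivity
  have hsub : {t : Env | (N * m + 1) / η < ∑ e ∈ s, t e} ⊆
      {t | ENNReal.ofReal ((N * m + 1) / η) ≤ ∑ e ∈ s, ENNReal.ofReal (t e)} := by
    intro t ht
    have ht' : (N * m + 1) / η < ∑ e ∈ s, t e := ht
    show ENNReal.ofReal ((N * m + 1) / η) ≤ ∑ e ∈ s, ENNReal.ofReal (t e)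
    calc ENNReal.ofReal ((N * m + 1) / η) ≤ ENNReal.ofReal (∑ e ∈ s, max (t e) 0) := by
          refine ENNReal.ofReal_le_ofReal (ht'.le.trans ?_)
          exact Finset.sum_le_sum fun e _ => le_max_left _ _
      _ = ∑ e ∈ s, ENNReal.ofReal (max (t e) 0) :=
          ENNReal.ofReal_sum_of_nonneg fun e _ => le_max_right _ _
      _ = ∑ e ∈ s, ENNReal.ofReal (t e) := by
          refine Finset.sum_congr rfl fun e _ => ?_
          rcases le_total (t e) 0 with h | h
          · rw [max_eq_right h, ENNReal.ofReal_zero, ENNReal.ofReal_of_nonpos h]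
          · rw [max_eq_left h]
  refine (measure_mono hsub).trans ?_
  refine (meas_ge_le_lintegral_div hmeas.aemeasurable (by positivity) (by finiteness)).trans ?_
  refine (ENNReal.div_le_div_right hint _).trans ?_
  rw [← ENNReal.ofReal_div_of_pos hD]
  refine ENNReal.ofReal_le_ofReal ?_
  rw [div_div_eq_mul_div, div_le_iff₀ (by positivity)]
  nlinarith

/-- Good windows. -/
theorem gw [NullSingletonClass G] (hG : Law G) : GWStmt G := by
  classical
  intro r η hη
  obtain ⟨β, hβ0, hβ⟩ := exists_level (G := G) hG.nonneg (η := 1 / 16) (by norm_num)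
  have hη3 : 0 < η / 3 := by positivity
  obtain ⟨D, hD, hD'⟩ := markov_sum hG.mean (4 * (2 * (r + 1) + 1) ^ 2) hη3
  refine ⟨D, hD, fun Λ => ?_⟩
  obtain ⟨C, θ, hC, hθ0, hθ1, hP⟩ := peierls G β hβ
  -- choice of `R₀`
  have hlim : Tendsto (fun k : ℕ => C * ((r + 1 : ℕ) + 1) * θ ^ k) atTop (nhds 0) := by
    have := (tendsto_pow_atTop_nhds_zero_of_lt_one hθ0.le hθ1).const_mul (C * ((r + 1 : ℕ) + 1))
    simpa using this
  obtain ⟨k₀, hk₀⟩ := Filter.eventually_atTop.1 ((tendsto_order.1 hlim).2 (η / 3) hη3)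
  obtain ⟨k₁, hk₁⟩ := exists_nat_gt (8 * Λ / β)
  refine ⟨r + 1 + max k₀ k₁, fun R hR => ?_⟩
  obtain ⟨M, hM, hM'⟩ := markov_sum hG.mean (4 * (2 * R + 1) ^ 2) hη3
  refine ⟨M, hM, fun z => ?_⟩
  have hrR : r + 1 ≤ R := by omega
  have h1 : PG G {t | ¬ AG β t z (r + 1) R} ≤ ENNReal.ofReal (η / 3) := by
    refine (hP z (r + 1) R hrR).trans (ENNReal.ofReal_le_ofReal ?_)
    exact (hk₀ (R - (r + 1)) (by omega)).le
  have h2 := hD' (tF z (r + 1)) (card_tF_le z (r + 1))
  have h3 := hM' (tF z R) (card_tF_le z R)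
  have h4 : PG G {t | ¬ ∀ e, 0 < t e} = 0 := ae_iff.1 (ae_pos G hG.nonneg)
  have hsub : {t : Env | ¬ GW Λ D M t z r R} ⊆ (({t | ¬ AG β t z (r + 1) R} ∪
      {t | D < ∑ e ∈ tF z (r + 1), t e}) ∪ {t | M < ∑ e ∈ tF z R, t e}) ∪
      {t | ¬ ∀ e, 0 < t e} := by
    intro t ht
    by_contra hnot
    simp only [Set.mem_union, Set.mem_ofPred_eq, not_or, not_not, not_lt] at hnot
    obtain ⟨⟨⟨a1, a2⟩, a3⟩, a4⟩ := hnot
    refine ht ⟨?_, a2, a3⟩
    intro x y p hx hy
    have b1 := a1 x y p hx hy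
    have b2 := heavy_le_ww (β := β) a4 p (s := hv β t z (r + 1) R p)
      (Finset.filter_subset _ _) fun e he => (Finset.mem_filter.1 he).2.2.2
    have b3 : (R : ℝ) ≤ (r + 1 : ℕ) + 8 * ((hv β t z (r + 1) R p).card : ℝ) := by
      exact_mod_cast b1
    have b4 : ((r + 1 + max k₀ k₁ : ℕ) : ℝ) ≤ R := by exact_mod_cast hR
    have b5 : (k₁ : ℝ) ≤ (max k₀ k₁ : ℕ) := by exact_mod_cast le_max_right _ _
    push_cast at b3 b4 b5
    rw [div_lt_iff₀ hβ0] at hk₁
    nlinarith
  calc PG G {t : Env | ¬ GW Λ D M t z r R} ≤ _ := measure_mono hsub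
    _ ≤ ((ENNReal.ofReal (η / 3) + ENNReal.ofReal (η / 3)) + ENNReal.ofReal (η / 3)) + 0 := by
        refine (measure_union_le _ _).trans (add_le_add ?_ h4.le)
        refine (measure_union_le _ _).trans (add_le_add ?_ h3)
        exact (measure_union_le _ _).trans (add_le_add h1 h2)
    _ = ENNReal.ofReal η := by
        rw [add_zero, ← ENNReal.ofReal_add (by positivity) (by positivity),
          ← ENNReal.ofReal_add (by positivity) (by positivity)]
        congr 1
        ring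

end Vale.Agent.P158.T1.Pe
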