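import Vale.Agent.P158.T1.MeasB

/-! Geometry of block centres, frozen environments, transfer of local events. -/

namespace Vale.Agent.P158.T1

open Filter MeasureTheory
open scoped ENNReal

/-! ### Boxes -/

theorem bx_sub {x z : V} {r s : ℕ} (h1 : |x.1 - z.1| + r ≤ s) (h2 : |x.2 - z.2| + r ≤ s) :
    bx x r ⊆ bx z s := by
  rintro y ⟨h3, h4⟩
  rw [mem_bx]
  constructor
  · calc |y.1 - z.1| ≤ |y.1 - x.1| + |x.1 - z.1| := abs_sub_le _ _ _
      _ ≤ s := by linarith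
  · calc |y.2 - z.2| ≤ |y.2 - x.2| + |x.2 - z.2| := abs_sub_le _ _ _
      _ ≤ s := by linarith

theorem center_mem (z : V) (r : ℕ) : z ∈ bx z r := by
  simp [mem_bx]

theorem tE_mono {z : V} {r s : ℕ} (h : r ≤ s) : tE z r ⊆ tE z s := by
  rintro e ⟨x, hx, hx'⟩
  exact ⟨x, hx, bx_mono h hx'⟩

theorem tE_sub {x z : V} {r s : ℕ} (h : bx x r ⊆ bx z s) : tE x r ⊆ tE z s := by
  rintro e ⟨y, hy, hy'⟩
  exact ⟨y, hy, h hy'⟩

theorem iE_subset_tE (z : V) (r : ℕ) : iE z r ⊆ tE z r := by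
  rintro ⟨e, he⟩ h
  induction e using Sym2.ind with
  | _ u v => exact ⟨u, by simp, h u (by simp)⟩

theorem rE_subset_tE (z : V) (r : ℕ) : rE z r ⊆ tE z (r + 1) := by
  rintro ⟨e, he⟩ h
  induction e using Sym2.ind with
  | _ u v => exact ⟨u, by simp, (h u (by simp)).1⟩

theorem mem_Zc {n r : ℕ} {q : ℤ × ℤ} : q ∈ Zc n r ↔
    |q.1| ≤ ((n / (2 * (2 * r + 1)) : ℕ) : ℤ) ∧ |q.2| ≤ ((n / (2 * (2 * r + 1)) : ℕ) : ℤ) := by
  unfold Zc
  rw [Finset.mem_Icc, Prod.le_def, Prod.le_def, abs_le, abs_le]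
  constructor
  · rintro ⟨⟨h1, h2⟩, h3, h4⟩; exact ⟨⟨h1, h3⟩, h2, h4⟩
  · rintro ⟨⟨h1, h3⟩, h2, h4⟩; exact ⟨⟨h1, h2⟩, h3, h4⟩

theorem cen_le {n r : ℕ} {q : ℤ × ℤ} (hq : q ∈ Zc n r) :
    2 * |(cen r q).1| ≤ n ∧ 2 * |(cen r q).2| ≤ n := by
  rw [mem_Zc] at hq
  have key : ∀ a : ℤ, |a| ≤ ((n / (2 * (2 * r + 1)) : ℕ) : ℤ) →
      2 * |(2 * (r : ℤ) + 1) * a| ≤ n := by
    intro a ha
    have h1 : (n / (2 * (2 * r + 1)) : ℕ) * (2 * (2 * r + 1)) ≤ n := Nat.div_mul_le_self _ _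
    have h2 : (((n / (2 * (2 * r + 1)) : ℕ) : ℤ)) * (2 * (2 * r + 1)) ≤ n := by
      exact_mod_cast h1
    rw [abs_mul, abs_of_nonneg (by positivity : (0 : ℤ) ≤ 2 * r + 1)]
    have h3 : (0 : ℤ) ≤ 2 * r + 1 := by positivity
    nlinarith [abs_nonneg a]
  exact ⟨key _ hq.1, key _ hq.2⟩

/-- Blocks around the centres fit into the box. -/
theorem bx_cen_subset {n r s : ℕ} {q : ℤ × ℤ} (hq : q ∈ Zc n r) (hs : 2 * s ≤ n) :
    bx (cen r q) s ⊆ bx 0 n := by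
  obtain ⟨h1, h2⟩ := cen_le hq
  have hs' : (2 : ℤ) * s ≤ n := by exact_mod_cast hs
  refine bx_sub ?_ ?_
  · simp only [Prod.fst_zero, sub_zero]; linarith
  · simp only [Prod.snd_zero, sub_zero]; linarith

theorem card_Zc (n r : ℕ) : (Zc n r).card = (2 * (n / (2 * (2 * r + 1))) + 1) ^ 2 := by
  unfold Zc
  rw [← Finset.Icc_product_Icc, Finset.card_product, Int.card_Icc, pow_two]
  congr 1 <;> omega

/-! ### Frozen environments -/

theorem fz_of_mem {n : ℕ} {t₀ t : Env} {e : latt.edgeSet} (h : e ∈ tE 0 n) :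
    fz n t₀ t e = t e := by
  unfold fz; rw [if_pos h]

theorem fz_of_not_mem {n : ℕ} {t₀ t : Env} {e : latt.edgeSet} (h : e ∉ tE 0 n) :
    fz n t₀ t e = t₀ e := by
  unfold fz; rw [if_neg h]

theorem fz_pos {n : ℕ} {t₀ t : Env} (h₀ : ∀ e, 0 < t₀ e) (h : ∀ e, 0 < t e) (e : latt.edgeSet) :
    0 < fz n t₀ t e := by
  by_cases he : e ∈ tE 0 n
  · rw [fz_of_mem he]; exact h e
  · rw [fz_of_not_mem he]; exact h₀ e

theorem fz_le {n : ℕ} {t₀ t t' : Env} (h : ∀ e, t e ≤ t' e) (e : latt.edgeSet) :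
    fz n t₀ t e ≤ fz n t₀ t' e := by
  by_cases he : e ∈ tE 0 n
  · rw [fz_of_mem he, fz_of_mem he]; exact h e
  · rw [fz_of_not_mem he, fz_of_not_mem he]

theorem fz_congr {n : ℕ} {t₀ t t' : Env} {e : latt.edgeSet} (h : t e = t' e) :
    fz n t₀ t e = fz n t₀ t' e := by
  by_cases he : e ∈ tE 0 n
  · rw [fz_of_mem he, fz_of_mem he, h]
  · rw [fz_of_not_mem he, fz_of_not_mem he]

theorem wt_eq (t : Env) {x y : V} (h : latt.Adj x y) : wt t x y = t ⟨s(x, y), h⟩ := by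
  unfold wt; rw [dif_pos h]

theorem adm_of_pos {t : Env} (h : ∀ e, 0 < t e) : Adm (wt t) := by
  refine ⟨wt_symm t, fun x y hxy => ?_⟩
  rw [wt_eq t hxy]
  exact h _

theorem pos_of_adm {t : Env} (h : Adm (wt t)) (e : latt.edgeSet) : 0 < t e := by
  obtain ⟨e, he⟩ := e
  induction e using Sym2.ind with
  | _ u v =>
    have := h.pos u v he
    rwa [wt_eq t he] at this

theorem ae_pos (G : Measure ℝ) [IsProbabilityMeasure G] [NullSingletonClass G]
    (hG : G (Set.Iio 0) = 0) : ∀ᵐ t ∂PG G, ∀ e, 0 < t e := by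
  filter_upwards [ae_adm (G := G) hG] with t ht
  exact pos_of_adm ht

theorem wt_mono {t t' : Env} (h : ∀ e, t e ≤ t' e) (x y : V) (hxy : latt.Adj x y) :
    wt t x y ≤ wt t' x y := by
  rw [wt_eq t hxy, wt_eq t' hxy]; exact h _

/-- The weight of a walk only depends on its edges. -/
theorem ww_congr {t t' : Env} {x y : V} (p : latt.Walk x y) (h : ∀ e ∈ pe p, t e = t' e) :
    ww (wt t) p = ww (wt t') p := by
  unfold ww
  congr 1
  refine List.map_congr_left fun d hd => ?_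
  have h1 := h (dE d) (mem_pe.2 ⟨d, hd, rfl⟩)
  rw [wt_eq t d.adj, wt_eq t' d.adj]
  exact h1

/-! ### Transfer of local events -/

theorem AG_congr {β : ℝ} {t t' : Env} {z : V} {r s : ℕ}
    (h : ∀ e, e ∉ tE z r → e ∈ tE z s → t e = t' e) (hA : AG β t z r s) : AG β t' z r s := by
  classical
  intro x y p hx hy
  have h1 := hA x y p hx hy
  have h2 : hv β t z r s p = hv β t' z r s p := by
    unfold hv
    refine Finset.filter_congr fun e _ => ?_
    constructor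
    · rintro ⟨a1, a2, a3⟩; exact ⟨a1, a2, by rw [← h _ a1 a2]; exact a3⟩
    · rintro ⟨a1, a2, a3⟩; exact ⟨a1, a2, by rw [h _ a1 a2]; exact a3⟩
  rwa [h2] at h1

theorem AG_fz_iff {β : ℝ} {n : ℕ} {t₀ t : Env} {z : V} {r s : ℕ} (h : bx z s ⊆ bx 0 n) :
    AG β (fz n t₀ t) z r s ↔ AG β t z r s :=
  ⟨AG_congr fun _ _ he => fz_of_mem (tE_sub h he),
    AG_congr fun _ _ he => (fz_of_mem (tE_sub h he)).symm⟩

/-- The first exit of a walk from a box. -/
theorem exists_exit {z : V} {R : ℕ} {x y : V} (p : latt.Walk x y) (hx : x ∈ bx z R)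
    (hy : y ∉ bx z R) : ∃ (y' : V) (p₁ : latt.Walk x y') (p₂ : latt.Walk y' y),
      p = p₁.append p₂ ∧ y' ∉ bx z R ∧ ∀ e ∈ pe p₁, e ∈ tE z R := by
  induction p with
  | nil => exact absurd hx hy
  | cons h p ih =>
    rename_i u v w
    by_cases hv : v ∈ bx z R
    · obtain ⟨y', p₁, p₂, hp, hy', he⟩ := ih hv hy
      refine ⟨y', SimpleGraph.Walk.cons h p₁, p₂, ?_, hy', ?_⟩
      · rw [SimpleGraph.Walk.cons_append, ← hp]
      · intro e hm
        rw [mem_pe] at hm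
        obtain ⟨d, hd, rfl⟩ := hm
        rw [SimpleGraph.Walk.darts_cons, List.mem_cons] at hd
        rcases hd with rfl | hd
        · exact ⟨u, by simp [dE, SimpleGraph.Dart.edge], hx⟩
        · exact he _ (mem_pe.2 ⟨d, hd, rfl⟩)
    · refine ⟨v, SimpleGraph.Walk.cons h SimpleGraph.Walk.nil, p, rfl, hv, ?_⟩
      intro e hm
      rw [mem_pe] at hm
      obtain ⟨d, hd, rfl⟩ := hm
      simp only [SimpleGraph.Walk.darts_cons, SimpleGraph.Walk.darts_nil,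
        List.mem_singleton] at hd
      subst hd
      exact ⟨u, by simp [dE, SimpleGraph.Dart.edge], hx⟩

theorem sum_tF_congr {t t' : Env} {z : V} {r : ℕ} (h : ∀ e ∈ tE z r, t e = t' e) :
    ∑ e ∈ tF z r, t e = ∑ e ∈ tF z r, t' e :=
  Finset.sum_congr rfl fun e he => h e (mem_tF.1 he)

theorem sum_rF_fz {n : ℕ} {t₀ t : Env} {z : V} {r : ℕ} (h : bx z (r + 1) ⊆ bx 0 n) :
    ∑ e ∈ rF z r, fz n t₀ t e = ∑ e ∈ rF z r, t e :=
  Finset.sum_congr rfl fun _ he =>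
    fz_of_mem (tE_sub h (rE_subset_tE z r (mem_rF.1 he)))

/-- Good windows are local. -/
theorem GW_congr {Λ D M : ℝ} {t t' : Env} {z : V} {r R : ℕ} (hr : r + 1 ≤ R)
    (hpos : ∀ e, 0 < t' e) (h : ∀ e ∈ tE z R, t e = t' e) (hW : GW Λ D M t z r R) :
    GW Λ D M t' z r R := by
  refine ⟨?_, ?_, ?_⟩
  · intro x y p hx hy
    obtain ⟨y', p₁, p₂, hp, hy', he⟩ := exists_exit p (bx_mono hr hx) hy
    have h1 := hW.far x y' p₁ hx hy'
    rw [ww_congr p₁ fun e hm => h e (he e hm)] at h1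
    rw [hp, ww_append]
    linarith [ww_nonneg (adm_of_pos hpos) p₂]
  · rw [← sum_tF_congr fun e he => h e (tE_mono hr he)]
    exact hW.near
  · rw [← sum_tF_congr h]
    exact hW.tot

theorem GW_fz {Λ D M : ℝ} {n : ℕ} {t₀ t : Env} {z : V} {r R : ℕ} (hr : r + 1 ≤ R)
    (h : bx z R ⊆ bx 0 n) (h₀ : ∀ e, 0 < t₀ e) (hpos : ∀ e, 0 < t e)
    (hW : GW Λ D M t z r R) : GW Λ D M (fz n t₀ t) z r R :=
  GW_congr hr (fz_pos h₀ hpos) (fun _ he => (fz_of_mem (tE_sub h he)).symm) hW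

/-! ### Setup -/

variable {ι : Type} {S : Set V} {a b : ι → V} {n : ℕ} {t₀ : Env} {C₀ : ℝ}

theorem Setup.frame (h : Setup n S a b t₀ C₀) : Frame S a b :=
  ⟨h.conn, fun i => (h.ha i).1, fun j => (h.hb j).1⟩

theorem Setup.frame' (h : Setup n S a b t₀ C₀) {z : V} {R : ℕ} (hz : bx z R ⊆ bx 0 n) :
    Frame (S \ bx z R) a b :=
  ⟨h.conn' z R hz, fun i => ⟨(h.ha i).1, fun hi => (h.ha i).2 (hz hi)⟩,
    fun j => ⟨(h.hb j).1, fun hj => (h.hb j).2 (hz hj)⟩⟩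

theorem Setup.att (h : Setup n S a b t₀ C₀) {w : V → V → ℝ} (hw : Adm w) : Att w S :=
  att_of_finite hw h.fin h.conn

theorem Setup.att' (h : Setup n S a b t₀ C₀) {w : V → V → ℝ} (hw : Adm w) {z : V} {R : ℕ}
    (hz : bx z R ⊆ bx 0 n) : Att w (S \ bx z R) :=
  att_of_finite hw (h.fin.subset Set.sdiff_subset) (h.conn' z R hz)

/-- Energies outside a box only depend on the weights outside. -/
theorem PT_congr {t t' : Env} {S : Set V} {x y : V} (h : ∀ e : latt.edgeSet,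
    (∀ z ∈ e.1, z ∈ S) → t e = t' e) : PT (wt t) S x y = PT (wt t') S x y := by
  unfold PT
  congr 1
  funext p
  refine ww_congr p.1 fun e he => h e fun z hz => p.2 z ?_
  rw [mem_pe] at he
  obtain ⟨d, hd, rfl⟩ := he
  have hz' : z = d.fst ∨ z = d.snd := by
    have : z ∈ s(d.fst, d.snd) := hz
    simpa using this
  rcases hz' with rfl | rfl
  · exact p.1.dart_fst_mem_support_of_mem_darts hd
  · exact p.1.dart_snd_mem_support_of_mem_darts hd

theorem lf_congr {t t' : Env} {S : Set V} {a : ι → V} {F : ι → ℝ} {x : V}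
    (h : ∀ e : latt.edgeSet, (∀ z ∈ e.1, z ∈ S) → t e = t' e) :
    lf (wt t) S a F x = lf (wt t') S a F x := by
  unfold lf
  congr 1
  funext i
  rw [PT_congr h]

theorem en_congr {t t' : Env} {S : Set V} {a b : ι → V} {F H : ι → ℝ}
    (h : ∀ e : latt.edgeSet, (∀ z ∈ e.1, z ∈ S) → t e = t' e) :
    en (wt t) S a F b H = en (wt t') S a F b H := by
  unfold en
  congr 1
  funext j
  rw [lf_congr h]

theorem enk_congr {t t' : Env} {S : Set V} {a b : ι → V} {c : Chain ι} {k : ℕ}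
    (h : ∀ e : latt.edgeSet, (∀ z ∈ e.1, z ∈ S) → t e = t' e) :
    enk t S a b c k = enk t' S a b c k := en_congr h

/-- An edge inside `S \ bx z R` does not touch `bx z R`. -/
theorem not_mem_tE_of_sdiff {S : Set V} {z : V} {R : ℕ} {e : latt.edgeSet}
    (h : ∀ x ∈ e.1, x ∈ S \ bx z R) : e ∉ tE z R := by
  rintro ⟨x, hx, hx'⟩
  exact (h x hx).2 hx'

end Vale.Agent.P158.T1
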