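import Vale.Agent.P158.T1.SeqL2
import Mathlib.Analysis.SpecialFunctions.Exp
import Mathlib.Analysis.Complex.ExponentialBounds
import Mathlib.MeasureTheory.Measure.WithDensity

/-! Block raising: every edge of `D` with weight `≤ α` is resampled, with probability `ε`,
from the law of a weight conditioned to be `≥ β`.  `L²` bound and coupling (thinning). -/

namespace Vale.Agent.P158.T1

open MeasureTheory Function Set
open scoped ENNReal

/-- Parameters of the raising. -/
structure RP (G : Measure ℝ) (α β : ℝ) (ε : ℝ) : Prop where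
  prob : IsProbabilityMeasure G
  lt : α < β
  lo : G (Iic α) ≠ 0
  hi : G (Ici β) ≠ 0
  nonneg : 0 ≤ ε
  le_one : ε ≤ 1
  pos : G (Iic 0) = 0

/-- Extra density of the high weights. -/
noncomputable def exd (G : Measure ℝ) (α β ε : ℝ) : ℝ≥0∞ :=
  ENNReal.ofReal ε * G (Iic α) / G (Ici β)

/-- Density of the raised law. -/
noncomputable def den (G : Measure ℝ) (α β ε : ℝ) (s : ℝ) : ℝ≥0∞ :=
  if s ≤ α then ENNReal.ofReal (1 - ε) else if β ≤ s then 1 + exd G α β ε else 1

/-- The raised law. -/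
noncomputable def rl (G : Measure ℝ) (α β ε : ℝ) : Measure ℝ := G.withDensity (den G α β ε)

/-- The law of a weight conditioned to be `≤ α`. -/
noncomputable def glo (G : Measure ℝ) (α : ℝ) : Measure ℝ := (G (Iic α))⁻¹ • G.restrict (Iic α)

/-- Probability that a high raised weight was not raised. -/
noncomputable def q1 (G : Measure ℝ) (α β ε : ℝ) : ℝ≥0∞ := (1 + exd G α β ε)⁻¹

/-- Probability that a high raised weight was raised. -/
noncomputable def q2 (G : Measure ℝ) (α β ε : ℝ) : ℝ≥0∞ := exd G α β ε * (1 + exd G α β ε)⁻¹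

variable {G : Measure ℝ} {α β ε : ℝ}

theorem measurable_den : Measurable (den G α β ε) := by
  unfold den
  exact Measurable.ite measurableSet_Iic measurable_const
    (Measurable.ite measurableSet_Ici measurable_const measurable_const)

theorem RP.exd_ne_top (h : RP G α β ε) : exd G α β ε ≠ ∞ := by
  have := h.prob
  unfold exd
  exact ENNReal.div_ne_top (ENNReal.mul_ne_top ENNReal.ofReal_ne_top (measure_ne_top _ _)) h.hi

theorem RP.exd_mul (h : RP G α β ε) :
    exd G α β ε * G (Ici β) = ENNReal.ofReal ε * G (Iic α) := by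
  have := h.prob
  unfold exd
  exact ENNReal.div_mul_cancel h.hi (measure_ne_top _ _)

theorem RP.one_add_ne (h : RP G α β ε) : (1 + exd G α β ε) ≠ 0 ∧ (1 + exd G α β ε) ≠ ∞ :=
  ⟨by simp, ENNReal.add_ne_top.2 ⟨ENNReal.one_ne_top, h.exd_ne_top⟩⟩

theorem RP.q_add (h : RP G α β ε) : q1 G α β ε + q2 G α β ε = 1 := by
  unfold q1 q2
  nth_rewrite 1 [← one_mul (1 + exd G α β ε)⁻¹]
  rw [← add_mul, ENNReal.mul_inv_cancel h.one_add_ne.1 h.one_add_ne.2]

theorem RP.mul_q1 (h : RP G α β ε) : (1 + exd G α β ε) * q1 G α β ε = 1 := by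
  unfold q1
  rw [ENNReal.mul_inv_cancel h.one_add_ne.1 h.one_add_ne.2]

theorem RP.mul_q2 (h : RP G α β ε) : (1 + exd G α β ε) * q2 G α β ε = exd G α β ε := by
  unfold q2
  rw [mul_left_comm, ENNReal.mul_inv_cancel h.one_add_ne.1 h.one_add_ne.2, mul_one]

theorem RP.prob_glo (h : RP G α β ε) : IsProbabilityMeasure (glo G α) := by
  have := h.prob
  constructor
  unfold glo
  rw [Measure.smul_apply, Measure.restrict_apply MeasurableSet.univ, univ_inter, smul_eq_mul,
    ENNReal.inv_mul_cancel h.lo (measure_ne_top _ _)]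

theorem RP.lintegral_glo (h : RP G α β ε) (f : ℝ → ℝ≥0∞) :
    G (Iic α) * ∫⁻ s, f s ∂glo G α = ∫⁻ s in Iic α, f s ∂G := by
  have := h.prob
  unfold glo
  rw [lintegral_smul_measure, smul_eq_mul, ← mul_assoc,
    ENNReal.mul_inv_cancel h.lo (measure_ne_top _ _), one_mul]

/-- Splitting of an integral over low, middle and high weights. -/
theorem RP.split (h : RP G α β ε) (f : ℝ → ℝ≥0∞) :
    ∫⁻ s, f s ∂G = ∫⁻ s in Iic α, f s ∂G + (∫⁻ s in Ioo α β, f s ∂G + ∫⁻ s in Ici β, f s ∂G) := by
  rw [← lintegral_add_compl f measurableSet_Iic (μ := G) (A := Iic α), compl_Iic]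
  congr 1
  have e : Ioi α = Ioo α β ∪ Ici β := (Ioo_union_Ici_eq_Ioi h.lt).symm
  rw [e, lintegral_union measurableSet_Ici]
  rw [Set.disjoint_left]
  intro x hx hx'
  exact absurd hx.2 (not_lt.2 hx')

/-- One-edge identity behind the coupling. -/
theorem RP.one_edge (h : RP G α β ε) {f : ℝ → ℝ≥0∞} (hf : Measurable f) :
    ∫⁻ s, f s ∂G = ∫⁻ s, (if β ≤ s then q1 G α β ε * f s +
      q2 G α β ε * ∫⁻ u, f u ∂glo G α else f s) ∂rl G α β ε := by
  have := h.prob
  set c := ∫⁻ u, f u ∂glo G α with hc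
  set F : ℝ → ℝ≥0∞ := fun s => if β ≤ s then q1 G α β ε * f s + q2 G α β ε * c else f s with hF
  have hFm : Measurable F :=
    Measurable.ite measurableSet_Ici ((hf.const_mul _).add measurable_const) hf
  unfold rl
  rw [lintegral_withDensity_eq_lintegral_mul _ measurable_den hFm, h.split f,
    h.split (den G α β ε * F)]
  have e1 : ∫⁻ s in Iic α, (den G α β ε * F) s ∂G =
      ENNReal.ofReal (1 - ε) * ∫⁻ s in Iic α, f s ∂G := by
    rw [← lintegral_const_mul _ hf]
    refine setLIntegral_congr_fun measurableSet_Iic fun s hs => ?_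
    have hs' : s ≤ α := hs
    have h1 : ¬ β ≤ s := not_le.2 (lt_of_le_of_lt hs' h.lt)
    simp only [Pi.mul_apply, den, hF, if_pos hs', if_neg h1]
  have e2 : ∫⁻ s in Ioo α β, (den G α β ε * F) s ∂G = ∫⁻ s in Ioo α β, f s ∂G := by
    refine setLIntegral_congr_fun measurableSet_Ioo fun s hs => ?_
    have h0 : ¬ s ≤ α := not_le.2 hs.1
    have h1 : ¬ β ≤ s := not_le.2 hs.2
    simp only [Pi.mul_apply, den, hF, if_neg h0, if_neg h1, one_mul]
  have e3 : ∫⁻ s in Ici β, (den G α β ε * F) s ∂G =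
      ∫⁻ s in Ici β, f s ∂G + exd G α β ε * c * G (Ici β) := by
    have e4 : ∀ s ∈ Ici β, (den G α β ε * F) s = f s + exd G α β ε * c := by
      intro s hs
      have hs' : β ≤ s := hs
      have h0 : ¬ s ≤ α := not_le.2 (lt_of_lt_of_le h.lt hs')
      simp only [Pi.mul_apply, den, hF, if_neg h0, if_pos hs']
      rw [mul_add, ← mul_assoc, ← mul_assoc, h.mul_q1, h.mul_q2, one_mul]
    rw [setLIntegral_congr_fun measurableSet_Ici e4, lintegral_add_right _ measurable_const,
      lintegral_const, Measure.restrict_apply MeasurableSet.univ, univ_inter]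
  have e5 : exd G α β ε * c * G (Ici β) = ENNReal.ofReal ε * ∫⁻ s in Iic α, f s ∂G := by
    rw [mul_right_comm, h.exd_mul, mul_assoc, hc, h.lintegral_glo]
  rw [e1, e2, e3, e5]
  have e6 : (∫⁻ s in Iic α, f s ∂G) = ENNReal.ofReal (1 - ε) * (∫⁻ s in Iic α, f s ∂G) +
      ENNReal.ofReal ε * (∫⁻ s in Iic α, f s ∂G) := by
    rw [← add_mul, ← ENNReal.ofReal_add (by linarith [h.le_one]) h.nonneg, sub_add_cancel,
      ENNReal.ofReal_one, one_mul]
  nth_rewrite 1 [e6]
  ring

/-- The raised law is a probability measure. -/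
theorem RP.prob_rl (h : RP G α β ε) : IsProbabilityMeasure (rl G α β ε) := by
  have := h.prob
  have := h.prob_glo
  constructor
  have h1 := h.one_edge (f := fun _ => 1) measurable_const
  simp only [mul_one, lintegral_const, measure_univ, h.q_add, ite_self, one_mul] at h1
  exact h1.symm

/-- `L²` bound for one edge. -/
theorem RP.sq_le (h : RP G α β ε) :
    ∫⁻ s, den G α β ε s ^ 2 ∂G ≤ ENNReal.ofReal (1 + ε ^ 2 * (1 + 1 / (G (Ici β)).toReal)) := by
  have := h.prob
  rw [h.split]
  have e1 : ∫⁻ s in Iic α, den G α β ε s ^ 2 ∂G = ENNReal.ofReal (1 - ε) ^ 2 * G (Iic α) := by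
    rw [← Measure.restrict_apply_univ (μ := G) (Iic α), ← lintegral_const]
    refine setLIntegral_congr_fun measurableSet_Iic fun s hs => ?_
    have hs' : s ≤ α := hs
    simp only [den, if_pos hs']
  have e2 : ∫⁻ s in Ioo α β, den G α β ε s ^ 2 ∂G = G (Ioo α β) := by
    rw [← Measure.restrict_apply_univ (μ := G) (Ioo α β), ← one_mul (G.restrict _ univ),
      ← lintegral_const]
    refine setLIntegral_congr_fun measurableSet_Ioo fun s hs => ?_
    have h0 : ¬ s ≤ α := not_le.2 hs.1
    have h1 : ¬ β ≤ s := not_le.2 hs.2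
    simp only [den, if_neg h0, if_neg h1, one_pow]
  have e3 : ∫⁻ s in Ici β, den G α β ε s ^ 2 ∂G = (1 + exd G α β ε) ^ 2 * G (Ici β) := by
    rw [← Measure.restrict_apply_univ (μ := G) (Ici β), ← lintegral_const]
    refine setLIntegral_congr_fun measurableSet_Ici fun s hs => ?_
    have hs' : β ≤ s := hs
    have h0 : ¬ s ≤ α := not_le.2 (lt_of_lt_of_le h.lt hs')
    simp only [den, if_neg h0, if_pos hs']
  rw [e1, e2, e3]
  -- pass to real numbers
  set a := (G (Iic α)).toReal with ha
  set m := (G (Ioo α β)).toReal with hm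
  set b := (G (Ici β)).toReal with hb
  have ha' : G (Iic α) = ENNReal.ofReal a := (ENNReal.ofReal_toReal (measure_ne_top _ _)).symm
  have hm' : G (Ioo α β) = ENNReal.ofReal m := (ENNReal.ofReal_toReal (measure_ne_top _ _)).symm
  have hb' : G (Ici β) = ENNReal.ofReal b := (ENNReal.ofReal_toReal (measure_ne_top _ _)).symm
  have hb0 : 0 < b := ENNReal.toReal_pos h.hi (measure_ne_top _ _)
  have ha0 : 0 ≤ a := ENNReal.toReal_nonneg
  have hm0 : 0 ≤ m := ENNReal.toReal_nonneg
  have hex : exd G α β ε = ENNReal.ofReal (ε * a / b) := by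
    unfold exd
    rw [ha', hb', ← ENNReal.ofReal_mul h.nonneg, ENNReal.ofReal_div_of_pos hb0]
  have hsum : a + (m + b) = 1 := by
    have h1 := h.split (fun _ => 1)
    simp only [lintegral_const, one_mul, measure_univ, Measure.restrict_apply MeasurableSet.univ,
      univ_inter, ha', hm', hb'] at h1
    rw [← ENNReal.ofReal_add hm0 hb0.le, ← ENNReal.ofReal_add ha0 (by positivity)] at h1
    have h2 := congrArg ENNReal.toReal h1
    rw [ENNReal.toReal_ofReal (by positivity)] at h2
    simpa using h2.symm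
  have hε := h.nonneg
  have h0 : 0 ≤ ε * a / b := by positivity
  have h1 : (0 : ℝ) ≤ 1 - ε := by linarith [h.le_one]
  rw [hex, ha', hm', hb', ← ENNReal.ofReal_pow h1, ← ENNReal.ofReal_mul (by positivity),
    ← ENNReal.ofReal_one, ← ENNReal.ofReal_add (by norm_num) h0,
    ← ENNReal.ofReal_pow (by positivity), ← ENNReal.ofReal_mul (by positivity),
    ← ENNReal.ofReal_add hm0 (by positivity), ← ENNReal.ofReal_add (by positivity) (by positivity)]
  refine ENNReal.ofReal_le_ofReal ?_
  have ha1 : a ≤ 1 := by linarith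
  have e4 : (1 + ε * a / b) ^ 2 * b = b + 2 * ε * a + ε ^ 2 * a ^ 2 / b := by
    field_simp
    ring
  rw [e4]
  have e5 : ε ^ 2 * a ^ 2 / b ≤ ε ^ 2 * (1 / b) := by
    rw [mul_div_assoc]
    refine mul_le_mul_of_nonneg_left ?_ (by positivity)
    rw [div_le_div_iff_of_pos_right hb0]
    nlinarith
  nlinarith [sq_nonneg ε]

/-- One-variable `L²` inequality. -/
theorem RP.l2 (h : RP G α β ε) {g : ℝ → ℝ≥0∞} (hg : Measurable g) :
    ∫⁻ s, g s ∂rl G α β ε ≤
      (ENNReal.ofReal (1 + ε ^ 2 * (1 + 1 / (G (Ici β)).toReal)) *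
        ∫⁻ s, g s ^ 2 ∂G) ^ (1 / 2 : ℝ) := by
  have := h.prob
  unfold rl
  rw [lintegral_withDensity_eq_lintegral_mul _ measurable_den hg]
  have h1 := ENNReal.lintegral_mul_le_Lp_mul_Lq G Real.HolderConjugate.two_two
    (measurable_den (G := G) (α := α) (β := β) (ε := ε)).aemeasurable hg.aemeasurable
  refine h1.trans ?_
  rw [ENNReal.mul_rpow_of_nonneg _ _ (by norm_num : (0 : ℝ) ≤ 1 / 2)]
  simp only [ENNReal.rpow_two]
  exact mul_le_mul' (ENNReal.rpow_le_rpow h.sq_le (by norm_num)) le_rfl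

/-! ### Product form of the `L²` bound -/

section Prod

variable {δ : Type*} [DecidableEq δ]

theorem lmarginal_l2 {G G' : Measure ℝ} [SigmaFinite G] [SigmaFinite G'] {b : ℝ≥0∞}
    (hb : ∀ g : ℝ → ℝ≥0∞, Measurable g → ∫⁻ s, g s ∂G' ≤ (b * ∫⁻ s, g s ^ 2 ∂G) ^ (1 / 2 : ℝ))
    {f : (δ → ℝ) → ℝ≥0∞} (hf : Measurable f) (D : Finset δ) (t : δ → ℝ) :
    (∫⋯∫⁻_D, f ∂fun _ => G') t ≤
      (b ^ D.card * (∫⋯∫⁻_D, (fun t' => f t' ^ 2) ∂fun _ => G) t) ^ (1 / 2 : ℝ) := by
  induction D using Finset.induction_on generalizing t with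
  | empty =>
    rw [lmarginal_empty, lmarginal_empty, Finset.card_empty, pow_zero, one_mul,
      ← ENNReal.rpow_two, ← ENNReal.rpow_mul]
    norm_num
  | insert e D he ih =>
    rw [lmarginal_insert _ hf he, lmarginal_insert _ (hf.pow_const 2) he,
      Finset.card_insert_of_notMem he]
    have hQm : Measurable fun s : ℝ =>
        (∫⋯∫⁻_D, (fun t' => f t' ^ 2) ∂fun _ => G) (update t e s) :=
      ((hf.pow_const 2).lmarginal (fun _ => G)).comp (measurable_update t)
    calc (∫⁻ s, (∫⋯∫⁻_D, f ∂fun _ => G') (update t e s) ∂G')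
        ≤ ∫⁻ s, (b ^ D.card *
            (∫⋯∫⁻_D, (fun t' => f t' ^ 2) ∂fun _ => G) (update t e s)) ^ (1 / 2 : ℝ) ∂G' :=
          lintegral_mono fun s => ih _
      _ ≤ (b * ∫⁻ s, ((b ^ D.card *
            (∫⋯∫⁻_D, (fun t' => f t' ^ 2) ∂fun _ => G) (update t e s)) ^ (1 / 2 : ℝ)) ^ 2 ∂G) ^
              (1 / 2 : ℝ) := hb _ ((hQm.const_mul _).pow_const _)
      _ = _ := by
          have h2 : ∀ s : ℝ, ((b ^ D.card *
            (∫⋯∫⁻_D, (fun t' => f t' ^ 2) ∂fun _ => G) (update t e s)) ^ (1 / 2 : ℝ)) ^ 2 =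
              b ^ D.card * (∫⋯∫⁻_D, (fun t' => f t' ^ 2) ∂fun _ => G) (update t e s) := by
            intro s
            rw [← ENNReal.rpow_two, ← ENNReal.rpow_mul]
            norm_num
          simp only [h2]
          rw [lintegral_const_mul _ hQm, ← mul_assoc, ← pow_succ']

/-- Resample the coordinates in `D` with the law `G'`. -/
noncomputable def rsm (G' : Measure ℝ) (D : Finset δ) (P : Measure (δ → ℝ)) :
    Measure (δ → ℝ) :=
  Measure.map (fun p : (δ → ℝ) × (D → ℝ) => updateFinset p.1 D p.2)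
    (P.prod (Measure.pi fun _ => G'))

theorem lintegral_rsm {G' : Measure ℝ} [SigmaFinite G'] {D : Finset δ} {P : Measure (δ → ℝ)}
    [SFinite P] {f : (δ → ℝ) → ℝ≥0∞} (hf : Measurable f) :
    ∫⁻ t, f t ∂rsm G' D P = ∫⁻ t, (∫⋯∫⁻_D, f ∂fun _ => G') t ∂P := by
  have hm : Measurable fun a : (δ → ℝ) × (D → ℝ) => f (updateFinset a.1 D a.2) :=
    hf.comp measurable_updateFinset'
  unfold rsm
  rw [lintegral_map hf measurable_updateFinset', lintegral_prod _ hm.aemeasurable]
  rfl

theorem prob_rsm {G' : Measure ℝ} [IsProbabilityMeasure G'] {D : Finset δ}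
    {P : Measure (δ → ℝ)} [IsProbabilityMeasure P] : IsProbabilityMeasure (rsm G' D P) :=
  Measure.isProbabilityMeasure_map measurable_updateFinset'.aemeasurable

/-- `L²` comparison of the raised law with the original law. -/
theorem RP.rsm_le (h : RP G α β ε) {D : Finset δ} {P : Measure (δ → ℝ)} [IsProbabilityMeasure P]
    (hP : rsm G D P = P) {C : Set (δ → ℝ)} (hC : MeasurableSet C) :
    rsm (rl G α β ε) D P C ≤
      (ENNReal.ofReal (1 + ε ^ 2 * (1 + 1 / (G (Ici β)).toReal)) ^ D.card * P C) ^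
        (1 / 2 : ℝ) := by
  have := h.prob
  have := h.prob_rl
  have hm : Measurable (C.indicator (1 : (δ → ℝ) → ℝ≥0∞)) := measurable_one.indicator hC
  have h2 : ∀ t, (C.indicator (1 : (δ → ℝ) → ℝ≥0∞) t) ^ 2 = C.indicator 1 t := by
    intro t
    by_cases ht : t ∈ C <;> simp [ht]
  rw [← lintegral_indicator_one hC, ← lintegral_indicator_one hC (μ := P), lintegral_rsm hm]
  conv_rhs => rw [← hP, lintegral_rsm hm]
  have hm2 : Measurable (∫⋯∫⁻_D, (C.indicator (1 : (δ → ℝ) → ℝ≥0∞)) ∂fun _ => G) :=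
    hm.lmarginal (fun _ => G)
  calc (∫⁻ t, (∫⋯∫⁻_D, (C.indicator (1 : (δ → ℝ) → ℝ≥0∞)) ∂fun _ => rl G α β ε) t ∂P)
      ≤ ∫⁻ t, (ENNReal.ofReal (1 + ε ^ 2 * (1 + 1 / (G (Ici β)).toReal)) ^ D.card *
          (∫⋯∫⁻_D, (C.indicator (1 : (δ → ℝ) → ℝ≥0∞)) ∂fun _ => G) t) ^ (1 / 2 : ℝ) ∂P := by
        refine lintegral_mono fun t => ?_
        have := lmarginal_l2 (fun g hg => h.l2 hg) hm D t
        simpa only [h2] using this
    _ ≤ (∫⁻ t, ENNReal.ofReal (1 + ε ^ 2 * (1 + 1 / (G (Ici β)).toReal)) ^ D.card *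
          (∫⋯∫⁻_D, (C.indicator (1 : (δ → ℝ) → ℝ≥0∞)) ∂fun _ => G) t ∂P) ^ (1 / 2 : ℝ) :=
        lintegral_sqrt_le P (hm2.const_mul _).aemeasurable
    _ = _ := by rw [lintegral_const_mul _ hm2]

/-- `L²` comparison with an explicit constant. -/
theorem RP.rsm_le_exp (h : RP G α β ε) {D : Finset δ} {P : Measure (δ → ℝ)}
    [IsProbabilityMeasure P] (hP : rsm G D P = P) {c : ℝ} (hc : (D.card : ℝ) * ε ^ 2 ≤ c)
    {C : Set (δ → ℝ)} (hC : MeasurableSet C) :
    rsm (rl G α β ε) D P C ≤
      (ENNReal.ofReal (Real.exp (c * (1 + 1 / (G (Ici β)).toReal))) * P C) ^ (1 / 2 : ℝ) := by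
  refine (h.rsm_le hP hC).trans (ENNReal.rpow_le_rpow (mul_le_mul' ?_ le_rfl) (by norm_num))
  have h0 : 0 ≤ 1 / (G (Ici β)).toReal := by positivity
  rw [← ENNReal.ofReal_pow (by positivity)]
  refine ENNReal.ofReal_le_ofReal ?_
  calc (1 + ε ^ 2 * (1 + 1 / (G (Ici β)).toReal)) ^ D.card
      ≤ (Real.exp (ε ^ 2 * (1 + 1 / (G (Ici β)).toReal))) ^ D.card :=
        pow_le_pow_left₀ (by positivity) (by
          rw [add_comm]; exact Real.add_one_le_exp _) _
    _ = Real.exp ((D.card : ℝ) * (ε ^ 2 * (1 + 1 / (G (Ici β)).toReal))) := by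
        rw [Real.exp_nat_mul]
    _ ≤ _ := by
        refine Real.exp_le_exp.2 ?_
        rw [← mul_assoc]
        exact mul_le_mul_of_nonneg_right hc (by positivity)

/-! ### Coupling (thinning) -/

/-- Lowering one edge of a raised configuration. -/
noncomputable def Kop (G : Measure ℝ) (α β ε : ℝ) (e : δ) (f : (δ → ℝ) → ℝ≥0∞) (t : δ → ℝ) :
    ℝ≥0∞ :=
  if β ≤ t e then q1 G α β ε * f t + q2 G α β ε * ∫⁻ u, f (update t e u) ∂glo G α else f t

/-- Lowering the edges of a list. -/
noncomputable def KL (G : Measure ℝ) (α β ε : ℝ) : List δ → ((δ → ℝ) → ℝ≥0∞) →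
    ((δ → ℝ) → ℝ≥0∞)
  | [], f => f
  | e :: l, f => KL G α β ε l (Kop G α β ε e f)

theorem measurable_upd2 (e : δ) : Measurable fun p : (δ → ℝ) × ℝ => update p.1 e p.2 := by
  refine measurable_pi_lambda _ fun i => ?_
  by_cases hi : i = e
  · subst hi
    simp only [update_self]
    exact measurable_snd
  · simp only [update_of_ne hi]
    exact (measurable_pi_apply i).comp measurable_fst

theorem RP.measurable_Kop (h : RP G α β ε) {f : (δ → ℝ) → ℝ≥0∞} (hf : Measurable f) (e : δ) :
    Measurable (Kop G α β ε e f) := by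
  have := h.prob_glo
  unfold Kop
  refine Measurable.ite (measurable_pi_apply e measurableSet_Ici) ?_ hf
  have h1 : Measurable fun p : (δ → ℝ) × ℝ => f (update p.1 e p.2) :=
    hf.comp (measurable_upd2 e)
  exact (hf.const_mul _).add ((Measurable.lintegral_prod_right' h1).const_mul _)

theorem RP.measurable_KL (h : RP G α β ε) (l : List δ) : ∀ {f : (δ → ℝ) → ℝ≥0∞},
    Measurable f → Measurable (KL G α β ε l f) := by
  induction l with
  | nil => intro f hf; exact hf
  | cons e l ih => intro f hf; exact ih (h.measurable_Kop hf e)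

theorem lmarginal_congr_meas {s : Finset δ} {μ ν : δ → Measure ℝ} (hμ : ∀ i ∈ s, μ i = ν i)
    (f : (δ → ℝ) → ℝ≥0∞) : (∫⋯∫⁻_s, f ∂μ) = ∫⋯∫⁻_s, f ∂ν := by
  funext x
  unfold lmarginal
  have : (fun i : s => μ i) = fun i : s => ν i := funext fun i => hμ i i.2
  rw [this]

theorem RP.one_edge_lm (h : RP G α β ε) {f : (δ → ℝ) → ℝ≥0∞} (hf : Measurable f)
    {D : Finset δ} {e : δ} (he : e ∈ D) {μ : δ → Measure ℝ} [∀ i, SigmaFinite (μ i)]
    (hμ : μ e = rl G α β ε) :
    (∫⋯∫⁻_D, f ∂(update μ e G)) = ∫⋯∫⁻_D, Kop G α β ε e f ∂μ := by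
  have := h.prob
  have i1 : ∀ i, SigmaFinite (update μ e G i) := by
    intro i
    by_cases hi : i = e
    · subst hi; rw [update_self]; infer_instance
    · rw [update_of_ne hi]; infer_instance
  rw [← Finset.insert_erase he]
  have he' : e ∉ D.erase e := Finset.notMem_erase _ _
  rw [lmarginal_insert' _ hf he', lmarginal_insert' _ (h.measurable_Kop hf e) he']
  rw [lmarginal_congr_meas (μ := update μ e G) (ν := μ) (s := D.erase e)
    fun i hi => update_of_ne (Finset.ne_of_mem_erase hi) _ _]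
  congr 1
  funext x
  rw [update_self, hμ]
  have hfx : Measurable fun s : ℝ => f (update x e s) := hf.comp (measurable_update x)
  rw [h.one_edge hfx]
  refine lintegral_congr fun s => ?_
  unfold Kop
  simp only [update_self, update_idem]

theorem RP.lm_KL (h : RP G α β ε) {D : Finset δ} (l : List δ) (hl : l.Nodup)
    (hlD : ∀ e ∈ l, e ∈ D) : ∀ {f : (δ → ℝ) → ℝ≥0∞}, Measurable f →
    (∫⋯∫⁻_D, f ∂fun i => if i ∈ l then G else rl G α β ε) =
      ∫⋯∫⁻_D, KL G α β ε l f ∂fun _ => rl G α β ε := by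
  have := h.prob
  have := h.prob_rl
  induction l with
  | nil => intro f _; simp [KL]
  | cons e l ih =>
    intro f hf
    have hel := (List.nodup_cons.1 hl).1
    have i1 : ∀ i, SigmaFinite ((fun i => if i ∈ l then G else rl G α β ε) i) := by
      intro i
      by_cases hi : i ∈ l
      · simp only [if_pos hi]; infer_instance
      · simp only [if_neg hi]; infer_instance
    have e1 : (fun i => if i ∈ e :: l then G else rl G α β ε) =
        update (fun i => if i ∈ l then G else rl G α β ε) e G := by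
      funext i
      by_cases hi : i = e
      · subst hi; simp
      · rw [update_of_ne hi]; simp [hi]
    rw [e1, h.one_edge_lm hf (hlD e (by simp)) (by simp [hel])]
    exact ih (List.nodup_cons.1 hl).2 (fun i hi => hlD i (by simp [hi]))
      (h.measurable_Kop hf e)

/-- Number of successes. -/
noncomputable def cnt (α : ℝ) (Q : Finset δ) (t : δ → ℝ) : ℕ := by
  classical exact (Q.filter fun e => t e ≤ α).card

/-- Configurations reachable from `t'` by lowering high edges of `D`. -/
def Rch (α β : ℝ) (D : Finset δ) (t' t : δ → ℝ) : Prop :=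
  (∀ e, e ∉ D → t e = t' e) ∧ ∀ e ∈ D, t e = t' e ∨ (β ≤ t' e ∧ 0 < t e ∧ t e ≤ α)

/-- The ratio of the exponential bound. -/
noncomputable def Th (G : Measure ℝ) (α β ε : ℝ) : ℝ≥0∞ :=
  q1 G α β ε + q2 G α β ε * ENNReal.ofReal (Real.exp (-1))

theorem RP.ae_glo (h : RP G α β ε) : ∀ᵐ u ∂glo G α, 0 < u ∧ u ≤ α := by
  have h1 : ∀ᵐ u ∂(G.restrict (Iic α)), 0 < u ∧ u ≤ α := by
    have h0 : ∀ᵐ u ∂G, 0 < u := by
      rw [ae_iff]
      simp only [not_lt]
      exact h.pos
    filter_upwards [self_mem_ae_restrict measurableSet_Iic, ae_restrict_of_ae h0] with u h1 h2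
    exact ⟨h2, h1⟩
  unfold glo
  exact Measure.ae_smul_measure h1 _

theorem cnt_update_mem {Q : Finset δ} {e : δ} (he : e ∈ Q) {t : δ → ℝ} (ht : ¬ t e ≤ α) {u : ℝ}
    (hu : u ≤ α) : cnt α Q (update t e u) = cnt α Q t + 1 := by
  classical
  unfold cnt
  have : Q.filter (fun i => update t e u i ≤ α) = insert e (Q.filter fun i => t i ≤ α) := by
    ext i
    simp only [Finset.mem_filter, Finset.mem_insert]
    by_cases hi : i = e
    · subst hi; simp [he, hu]
    · simp [hi]
  rw [this, Finset.card_insert_of_notMem]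
  simp [ht]

theorem cnt_update_notMem {Q : Finset δ} {e : δ} (he : e ∉ Q) (t : δ → ℝ) (u : ℝ) :
    cnt α Q (update t e u) = cnt α Q t := by
  classical
  unfold cnt
  congr 1
  refine Finset.filter_congr fun i hi => ?_
  have : i ≠ e := fun h => he (h ▸ hi)
  rw [update_of_ne this]

theorem RP.KL_ge (h : RP G α β ε) {D Q : Finset δ} (M : ℕ) (t' : δ → ℝ)
    (hQ : ∀ e ∈ Q, β ≤ t' e) (l : List δ) (hl : l.Nodup) (hlD : ∀ e ∈ l, e ∈ D) :
    ∀ (U : Finset δ) (j : ℕ) (f : (δ → ℝ) → ℝ≥0∞), (∀ e ∈ l, e ∉ U) →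
      (∀ t, Rch α β D t' t → (∀ e ∈ U, t e = t' e) →
        1 ≤ f t + ENNReal.ofReal (Real.exp ((M : ℝ) - cnt α Q t)) * Th G α β ε ^ j) →
      ∀ t, Rch α β D t' t → (∀ e ∈ U, t e = t' e) → (∀ e ∈ l, t e = t' e) →
        1 ≤ KL G α β ε l f t + ENNReal.ofReal (Real.exp ((M : ℝ) - cnt α Q t)) *
          Th G α β ε ^ (j + (l.toFinset ∩ Q).card) := by
  have := h.prob
  have := h.prob_glo
  induction l with
  | nil =>
    intro U j f _ hf t h1 h2 _
    simpa [KL] using hf t h1 h2
  | cons e l ih =>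
    intro U j f hU hf t h1 h2 h3
    have hel := (List.nodup_cons.1 hl).1
    have heD := hlD e (by simp)
    have heU := hU e (by simp)
    set j' : ℕ := j + if e ∈ Q then 1 else 0 with hj'
    have hcard : j + ((e :: l).toFinset ∩ Q).card = j' + (l.toFinset ∩ Q).card := by
      rw [List.toFinset_cons]
      by_cases heQ : e ∈ Q
      · rw [Finset.insert_inter_of_mem heQ, Finset.card_insert_of_notMem
          (by simp [hel]), hj', if_pos heQ]
        ring
      · rw [Finset.insert_inter_of_notMem heQ, hj', if_neg heQ, add_zero]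
    rw [hcard]
    simp only [KL]
    refine ih (List.nodup_cons.1 hl).2 (fun i hi => hlD i (by simp [hi])) (insert e U) j'
      (Kop G α β ε e f) ?_ ?_ t h1 ?_ (fun i hi => h3 i (by simp [hi]))
    · intro i hi hi'
      rcases Finset.mem_insert.1 hi' with rfl | hi'
      · exact hel hi
      · exact hU i (by simp [hi]) hi'
    · intro s hs hsU
      have hse : s e = t' e := hsU e (by simp)
      have hsU' : ∀ i ∈ U, s i = t' i := fun i hi => hsU i (by simp [hi])
      by_cases hb : β ≤ s e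
      · -- the edge is high
        have hupd : ∀ u, 0 < u → u ≤ α → Rch α β D t' (update s e u) ∧
            ∀ i ∈ U, update s e u i = t' i := by
          intro u hu0 hu
          refine ⟨⟨fun i hi => ?_, fun i hi => ?_⟩, fun i hi => ?_⟩
          · have : i ≠ e := fun h' => hi (h' ▸ heD)
            rw [update_of_ne this]; exact hs.1 i hi
          · by_cases hie : i = e
            · subst hie; rw [update_self]; exact Or.inr ⟨hse ▸ hb, hu0, hu⟩
            · rw [update_of_ne hie]; exact hs.2 i hi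
          · have : i ≠ e := fun h' => heU (h' ▸ hi)
            rw [update_of_ne this]; exact hsU' i hi
        have hK : Kop G α β ε e f s = q1 G α β ε * f s +
            q2 G α β ε * ∫⁻ u, f (update s e u) ∂glo G α := by
          unfold Kop; rw [if_pos hb]
        rw [hK]
        have hsα : ¬ s e ≤ α := not_le.2 (lt_of_lt_of_le h.lt hb)
        set x : ℝ≥0∞ := ENNReal.ofReal (Real.exp ((M : ℝ) - cnt α Q s)) with hx
        have g1 := hf s hs hsU'
        by_cases heQ : e ∈ Q
        · have g2 : 1 ≤ (∫⁻ u, f (update s e u) ∂glo G α) +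
              x * ENNReal.ofReal (Real.exp (-1)) * Th G α β ε ^ j := by
            have g3 : ∫⁻ _u, (1 : ℝ≥0∞) ∂glo G α ≤ ∫⁻ u, (f (update s e u) +
                x * ENNReal.ofReal (Real.exp (-1)) * Th G α β ε ^ j) ∂glo G α := by
              refine lintegral_mono_ae ?_
              filter_upwards [h.ae_glo] with u hu
              obtain ⟨r1, r2⟩ := hupd u hu.1 hu.2
              have := hf _ r1 r2
              rw [cnt_update_mem heQ hsα hu.2] at this
              have e1 : Real.exp ((M : ℝ) - ((cnt α Q s + 1 : ℕ) : ℝ)) =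
                  Real.exp ((M : ℝ) - cnt α Q s) * Real.exp (-1) := by
                rw [← Real.exp_add]; congr 1; push_cast; ring
              rwa [e1, ENNReal.ofReal_mul (Real.exp_pos _).le] at this
            rw [lintegral_const, measure_univ, mul_one, lintegral_add_right _ measurable_const,
              lintegral_const, measure_univ, mul_one] at g3
            exact g3
          have e2 : x * Th G α β ε ^ j' = q1 G α β ε * (x * Th G α β ε ^ j) +
              q2 G α β ε * (x * ENNReal.ofReal (Real.exp (-1)) * Th G α β ε ^ j) := by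
            rw [hj', if_pos heQ, pow_succ]
            nth_rewrite 2 [Th]
            ring
          rw [e2]
          calc (1 : ℝ≥0∞) = q1 G α β ε * 1 + q2 G α β ε * 1 := by
                rw [mul_one, mul_one, h.q_add]
            _ ≤ q1 G α β ε * (f s + x * Th G α β ε ^ j) + q2 G α β ε *
                ((∫⁻ u, f (update s e u) ∂glo G α) +
                  x * ENNReal.ofReal (Real.exp (-1)) * Th G α β ε ^ j) :=
                add_le_add (mul_le_mul' le_rfl g1) (mul_le_mul' le_rfl g2)
            _ = _ := by ring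
        · have g2 : 1 ≤ (∫⁻ u, f (update s e u) ∂glo G α) + x * Th G α β ε ^ j := by
            have g3 : ∫⁻ _u, (1 : ℝ≥0∞) ∂glo G α ≤ ∫⁻ u, (f (update s e u) +
                x * Th G α β ε ^ j) ∂glo G α := by
              refine lintegral_mono_ae ?_
              filter_upwards [h.ae_glo] with u hu
              obtain ⟨r1, r2⟩ := hupd u hu.1 hu.2
              have := hf _ r1 r2
              rwa [cnt_update_notMem heQ] at this
            rw [lintegral_const, measure_univ, mul_one, lintegral_add_right _ measurable_const,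
              lintegral_const, measure_univ, mul_one] at g3
            exact g3
          have e2 : x * Th G α β ε ^ j' = q1 G α β ε * (x * Th G α β ε ^ j) +
              q2 G α β ε * (x * Th G α β ε ^ j) := by
            rw [hj', if_neg heQ, add_zero, ← add_mul, h.q_add, one_mul]
          rw [e2]
          calc (1 : ℝ≥0∞) = q1 G α β ε * 1 + q2 G α β ε * 1 := by
                rw [mul_one, mul_one, h.q_add]
            _ ≤ q1 G α β ε * (f s + x * Th G α β ε ^ j) + q2 G α β ε *
                ((∫⁻ u, f (update s e u) ∂glo G α) + x * Th G α β ε ^ j) :=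
                add_le_add (mul_le_mul' le_rfl g1) (mul_le_mul' le_rfl g2)
            _ = _ := by ring
      · -- the edge is not high: then it is not in `Q`
        have heQ : e ∉ Q := fun h' => hb (by rw [hse]; exact hQ e h')
        have hK : Kop G α β ε e f s = f s := by unfold Kop; rw [if_neg hb]
        rw [hK, hj', if_neg heQ, add_zero]
        exact hf s hs hsU'
    · intro i hi
      rcases Finset.mem_insert.1 hi with rfl | hi
      · exact h3 _ (by simp)
      · exact h2 i hi

theorem RP.Th_eq (h : RP G α β ε) :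
    Th G α β ε = ENNReal.ofReal (1 - (q2 G α β ε).toReal * (1 - Real.exp (-1))) := by
  have hq := h.q_add
  have h1 : q1 G α β ε ≠ ∞ :=
    ne_top_of_le_ne_top ENNReal.one_ne_top (hq ▸ le_self_add)
  have h2 : q2 G α β ε ≠ ∞ :=
    ne_top_of_le_ne_top ENNReal.one_ne_top (hq ▸ le_add_self)
  have h3 : (q1 G α β ε).toReal + (q2 G α β ε).toReal = 1 := by
    rw [← ENNReal.toReal_add h1 h2, hq, ENNReal.toReal_one]
  unfold Th
  nth_rewrite 1 [← ENNReal.ofReal_toReal h1, ← ENNReal.ofReal_toReal h2]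
  rw [← ENNReal.ofReal_mul ENNReal.toReal_nonneg, ← ENNReal.ofReal_add ENNReal.toReal_nonneg
    (by positivity)]
  congr 1
  linear_combination h3

theorem RP.q2_toReal (h : RP G α β ε) : (q2 G α β ε).toReal =
    ε * (G (Iic α)).toReal / ((G (Ici β)).toReal + ε * (G (Iic α)).toReal) := by
  have := h.prob
  set a := (G (Iic α)).toReal with ha
  set b := (G (Ici β)).toReal with hb
  have ha' : G (Iic α) = ENNReal.ofReal a := (ENNReal.ofReal_toReal (measure_ne_top _ _)).symm
  have hb' : G (Ici β) = ENNReal.ofReal b := (ENNReal.ofReal_toReal (measure_ne_top _ _)).symm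
  have hb0 : 0 < b := ENNReal.toReal_pos h.hi (measure_ne_top _ _)
  have ha0 : 0 ≤ a := ENNReal.toReal_nonneg
  have hε := h.nonneg
  have hex : exd G α β ε = ENNReal.ofReal (ε * a / b) := by
    unfold exd
    rw [ha', hb', ← ENNReal.ofReal_mul h.nonneg, ENNReal.ofReal_div_of_pos hb0]
  unfold q2
  rw [hex, ← ENNReal.ofReal_one, ← ENNReal.ofReal_add (by norm_num) (by positivity),
    ENNReal.toReal_mul, ENNReal.toReal_inv, ENNReal.toReal_ofReal (by positivity),
    ENNReal.toReal_ofReal (by positivity)]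
  field_simp

/-- **Coupling (thinning).**  If from every `t' ∈ A'` lowering at least `M` edges of some set of
at least `N` high edges of `D` (and possibly other edges of `D`) leads to `A`, then the raised
law of `A'` is at most twice the original law of `A`. -/
theorem RP.thin (h : RP G α β ε) {D : Finset δ} {P : Measure (δ → ℝ)} [IsProbabilityMeasure P]
    (hP : rsm G D P = P) {A A' : Set (δ → ℝ)} (hA : MeasurableSet A) {N M : ℕ}
    (hNM : 2 * (M : ℝ) + 2 ≤
      N * (ε * (G (Iic α)).toReal / ((G (Ici β)).toReal + ε * (G (Iic α)).toReal)))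
    (H : ∀ t' ∈ A', ∃ Q ⊆ D, N ≤ Q.card ∧ (∀ e ∈ Q, β ≤ t' e) ∧
      ∀ t, Rch α β D t' t → M ≤ cnt α Q t → t ∈ A) :
    rsm (rl G α β ε) D P A' ≤ 2 * P A := by
  have := h.prob
  have := h.prob_rl
  set f : (δ → ℝ) → ℝ≥0∞ := A.indicator 1 with hf
  have hfm : Measurable f := measurable_one.indicator hA
  set k := KL G α β ε D.toList f with hk
  have hkm : Measurable k := h.measurable_KL _ hfm
  have hTh1 : Th G α β ε ≤ 1 := by
    have h1 : ENNReal.ofReal (Real.exp (-1)) ≤ 1 := by
      rw [← ENNReal.ofReal_one]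
      exact ENNReal.ofReal_le_ofReal (Real.exp_le_one_iff.2 (by norm_num))
    calc Th G α β ε ≤ q1 G α β ε + q2 G α β ε * 1 :=
          add_le_add le_rfl (mul_le_mul' le_rfl h1)
      _ = 1 := by rw [mul_one, h.q_add]
  -- the exponential bound
  have hnum : ENNReal.ofReal (Real.exp M) * Th G α β ε ^ N ≤ 1 / 2 := by
    rw [h.Th_eq]
    rw [← h.q2_toReal] at hNM
    set q := (q2 G α β ε).toReal with hq
    have hq0 : 0 ≤ q := ENNReal.toReal_nonneg
    have hq1 : q ≤ 1 := by
      have h1 : q2 G α β ε ≤ 1 := by rw [← h.q_add]; exact le_add_self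
      exact ENNReal.toReal_le_of_le_ofReal (by norm_num) (by simpa using h1)
    have he1 : Real.exp (-1) ≤ 3 / 8 := by
      have h5 := Real.exp_one_gt_d9
      rw [Real.exp_neg, ← one_div, div_le_div_iff₀ (Real.exp_pos _) (by norm_num)]
      linarith
    have he0 : 0 < Real.exp (-1) := Real.exp_pos _
    have h0 : 0 ≤ 1 - q * (1 - Real.exp (-1)) := by nlinarith
    rw [← ENNReal.ofReal_pow h0, ← ENNReal.ofReal_mul (Real.exp_pos _).le]
    have h2 : (1 / 2 : ℝ≥0∞) = ENNReal.ofReal (1 / 2) := by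
      rw [ENNReal.ofReal_div_of_pos (by norm_num)]; norm_num
    rw [h2]
    refine ENNReal.ofReal_le_ofReal ?_
    have h3 : 1 - q * (1 - Real.exp (-1)) ≤ Real.exp (-(q * (5 / 8))) := by
      have := Real.add_one_le_exp (-(q * (5 / 8)))
      nlinarith
    calc Real.exp M * (1 - q * (1 - Real.exp (-1))) ^ N
        ≤ Real.exp M * Real.exp (-(q * (5 / 8))) ^ N :=
          mul_le_mul_of_nonneg_left (pow_le_pow_left₀ h0 h3 _) (Real.exp_pos _).le
      _ = Real.exp ((M : ℝ) - N * (q * (5 / 8))) := by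
          rw [← Real.exp_nat_mul, ← Real.exp_add]; congr 1; ring
      _ ≤ Real.exp (-(5 / 4)) := by
          refine Real.exp_le_exp.2 ?_
          have hM : (0 : ℝ) ≤ M := Nat.cast_nonneg _
          nlinarith
      _ ≤ Real.exp (-1) := Real.exp_le_exp.2 (by norm_num)
      _ ≤ 1 / 2 := by linarith
  -- the lower bound on `A'`
  have hge : ∀ t' ∈ A', 1 / 2 ≤ k t' := by
    intro t' ht'
    obtain ⟨Q, hQD, hQN, hQβ, hQA⟩ := H t' ht'
    have h1 := h.KL_ge (D := D) (Q := Q) M t' hQβ D.toList (Finset.nodup_toList D)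
      (fun e he => by simpa using he) ∅ 0 f (by simp) ?_ t'
      ⟨fun _ _ => rfl, fun _ _ => Or.inl rfl⟩ (by simp) (fun _ _ => rfl)
    · rw [Finset.toList_toFinset, Finset.inter_eq_right.2 hQD, zero_add] at h1
      have hc : cnt α Q t' = 0 := by
        classical
        unfold cnt
        rw [Finset.card_eq_zero, Finset.filter_eq_empty_iff]
        intro e he
        exact not_le.2 (lt_of_lt_of_le h.lt (hQβ e he))
      rw [hc, Nat.cast_zero, sub_zero] at h1
      have h2 : Th G α β ε ^ Q.card ≤ Th G α β ε ^ N := pow_le_pow_right_of_le_one' hTh1 hQN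
      have h3 : 1 ≤ k t' + 1 / 2 :=
        h1.trans (add_le_add le_rfl ((mul_le_mul' le_rfl h2).trans hnum))
      by_contra hlt
      have h5 : k t' + 1 / 2 < 1 / 2 + 1 / 2 :=
        ENNReal.add_lt_add_right (by norm_num) (not_le.1 hlt)
      rw [ENNReal.add_halves] at h5
      exact absurd h3 (not_le.2 h5)
    · intro t ht _
      rw [pow_zero, mul_one]
      by_cases hM : M ≤ cnt α Q t
      · have : f t = 1 := by
          simp only [hf]
          rw [indicator_of_mem (hQA t ht hM)]; rfl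
        rw [this]
        exact le_self_add
      · have : (1 : ℝ≥0∞) ≤ ENNReal.ofReal (Real.exp ((M : ℝ) - cnt α Q t)) := by
          rw [← ENNReal.ofReal_one]
          refine ENNReal.ofReal_le_ofReal (Real.one_le_exp ?_)
          have : (cnt α Q t : ℝ) ≤ M := by exact_mod_cast (not_le.1 hM).le
          linarith
        exact this.trans le_add_self
  -- integration
  have hint : ∫⁻ t, k t ∂rsm (rl G α β ε) D P = P A := by
    rw [lintegral_rsm hkm]
    have e1 := h.lm_KL (D := D) D.toList (Finset.nodup_toList D)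
      (fun e he => by simpa using he) hfm
    have e0 : (∫⋯∫⁻_D, f ∂fun i => if i ∈ D.toList then G else rl G α β ε) =
        ∫⋯∫⁻_D, f ∂fun _ => G := lmarginal_congr_meas (fun i hi => by simp [hi]) f
    rw [← hk, e0] at e1
    rw [← e1, ← lintegral_rsm hfm, hP, hf, lintegral_indicator_one hA]
  calc rsm (rl G α β ε) D P A' ≤ rsm (rl G α β ε) D P {t | 1 / 2 ≤ k t} :=
        measure_mono fun t ht => hge t ht
    _ ≤ (∫⁻ t, k t ∂rsm (rl G α β ε) D P) / (1 / 2) := by
        refine meas_ge_le_lintegral_div hkm.aemeasurable (by norm_num) (by norm_num)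
    _ = 2 * P A := by
        rw [hint, ENNReal.div_eq_inv_mul, one_div, inv_inv]

end Prod

end Vale.Agent.P158.T1
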