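import Vale.Agent.P158.Basic
import Mathlib.Data.Finset.Lattice.Fold
import Mathlib.Data.Set.Finite.List
import Mathlib.Order.ConditionallyCompleteLattice.Finset

/-! Lines, energies and excesses for a family of left and right terminals. -/

namespace Vale.Agent.P158.T1

open Filter

variable {ι : Type*} {w w' : V → V → ℝ} {S : Set V} {a b : ι → V} {F F' H H' : ι → ℝ}
  {x y z : V} {δ : ℝ}

/-- Cost of reaching `x` from the terminals `a` with starting costs `F`.  The right function
is `lf w S b H`. -/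
noncomputable def lf (w : V → V → ℝ) (S : Set V) (a : ι → V) (F : ι → ℝ) (x : V) : ℝ :=
  ⨅ i, (F i + PT w S (a i) x)

/-- The energy. -/
noncomputable def en (w : V → V → ℝ) (S : Set V) (a : ι → V) (F : ι → ℝ) (b : ι → V)
    (H : ι → ℝ) : ℝ :=
  ⨅ j, (lf w S a F (b j) + H j)

/-- The excess of `x`. -/
noncomputable def exc (w : V → V → ℝ) (S : Set V) (a : ι → V) (F : ι → ℝ) (b : ι → V)
    (H : ι → ℝ) (x : V) : ℝ :=
  lf w S a F x + lf w S b H x - en w S a F b H

/-- `x` is visited. -/
def Vis (w : V → V → ℝ) (S : Set V) (a : ι → V) (F : ι → ℝ) (b : ι → V)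
    (H : ι → ℝ) (x : V) : Prop :=
  x ∈ S ∧ exc w S a F b H x = 0

/-- The directed edge from `y` to `x` is used. -/
def Use (w : V → V → ℝ) (S : Set V) (a : ι → V) (F : ι → ℝ) (b : ι → V)
    (H : ι → ℝ) (y x : V) : Prop :=
  latt.Adj y x ∧ y ∈ S ∧ x ∈ S ∧ lf w S a F y + w y x + lf w S b H x = en w S a F b H

/-- The domain is connected and contains the terminals. -/
structure Frame (S : Set V) (a b : ι → V) : Prop where
  conn : ∀ x ∈ S, ∀ y ∈ S, Conn S x y
  left : ∀ i, a i ∈ S
  right : ∀ j, b j ∈ S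

theorem Frame.swap (h : Frame S a b) : Frame S b a := ⟨h.conn, h.right, h.left⟩

/-- All restricted passage times are attained. -/
def Att (w : V → V → ℝ) (S : Set V) : Prop :=
  ∀ x ∈ S, ∀ y ∈ S, ∃ p : latt.Walk x y, (∀ z ∈ p.support, z ∈ S) ∧ ww w p = PT w S x y

/-- A line: a walk inside `S` from a left terminal to a right terminal. -/
structure Line (S : Set V) (a b : ι → V) where
  /-- index of the left terminal -/
  i : ι
  /-- index of the right terminal -/
  j : ι
  /-- the walk -/
  p : latt.Walk (a i) (b j)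
  inS : ∀ z ∈ p.support, z ∈ S

/-- Cost of a line. -/
def Line.cost (w : V → V → ℝ) (F H : ι → ℝ) (L : Line S a b) : ℝ := F L.i + ww w L.p + H L.j

/-- Reversed line. -/
def Line.rev (L : Line S a b) : Line S b a :=
  ⟨L.j, L.i, L.p.reverse, fun z hz => L.inS z (by simpa using hz)⟩

theorem Line.cost_rev (hw : Adm w) (L : Line S a b) : L.rev.cost w H F = L.cost w F H := by
  simp only [Line.cost, Line.rev, ww_reverse hw]
  ring

/-! ### Elementary properties of `lf` -/

section Fin
variable [Finite ι]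

theorem lf_le (w : V → V → ℝ) (S : Set V) (a : ι → V) (F : ι → ℝ) (x : V) (i : ι) :
    lf w S a F x ≤ F i + PT w S (a i) x :=
  ciInf_le (Set.finite_range _).bddBelow i

theorem en_le (w : V → V → ℝ) (S : Set V) (a : ι → V) (F : ι → ℝ) (b : ι → V) (H : ι → ℝ)
    (j : ι) : en w S a F b H ≤ lf w S a F (b j) + H j :=
  ciInf_le (Set.finite_range _).bddBelow j

variable [Nonempty ι]

theorem exists_lf (w : V → V → ℝ) (S : Set V) (a : ι → V) (F : ι → ℝ) (x : V) :
    ∃ i, lf w S a F x = F i + PT w S (a i) x := by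
  obtain ⟨i, hi⟩ := exists_eq_ciInf_of_finite (f := fun i => F i + PT w S (a i) x)
  exact ⟨i, hi.symm⟩

theorem exists_en' (w : V → V → ℝ) (S : Set V) (a : ι → V) (F : ι → ℝ) (b : ι → V)
    (H : ι → ℝ) : ∃ j, en w S a F b H = lf w S a F (b j) + H j := by
  obtain ⟨j, hj⟩ := exists_eq_ciInf_of_finite (f := fun j => lf w S a F (b j) + H j)
  exact ⟨j, hj.symm⟩

omit [Finite ι] in
theorem le_lf {c : ℝ} (h : ∀ i, c ≤ F i + PT w S (a i) x) : c ≤ lf w S a F x := le_ciInf h

omit [Finite ι] in
theorem le_en' {c : ℝ} (h : ∀ j, c ≤ lf w S a F (b j) + H j) : c ≤ en w S a F b H := le_ciInf h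

theorem exists_en (w : V → V → ℝ) (S : Set V) (a : ι → V) (F : ι → ℝ) (b : ι → V)
    (H : ι → ℝ) : ∃ i j, en w S a F b H = F i + PT w S (a i) (b j) + H j := by
  obtain ⟨j, hj⟩ := exists_en' w S a F b H
  obtain ⟨i, hi⟩ := exists_lf w S a F (b j)
  exact ⟨i, j, by rw [hj, hi]⟩

omit [Nonempty ι] in
theorem en_le_ij (w : V → V → ℝ) (S : Set V) (a : ι → V) (F : ι → ℝ) (b : ι → V)
    (H : ι → ℝ) (i j : ι) : en w S a F b H ≤ F i + PT w S (a i) (b j) + H j := by
  have h1 := en_le w S a F b H j
  have h2 := lf_le w S a F (b j) i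
  linarith

theorem lf_triangle (hw : Adm w) (fr : Frame S a b) (hx : x ∈ S) (hy : y ∈ S) :
    lf w S a F x ≤ lf w S a F y + PT w S y x := by
  obtain ⟨i, hi⟩ := exists_lf w S a F y
  have h1 := lf_le w S a F x i
  have h2 := PT_triangle hw (fr.conn _ (fr.left i) _ hy) (fr.conn _ hy _ hx)
  linarith

theorem lf_adj (hw : Adm w) (fr : Frame S a b) (h : latt.Adj y x) (hy : y ∈ S) (hx : x ∈ S) :
    lf w S a F x ≤ lf w S a F y + w y x :=
  (lf_triangle hw fr hx hy).trans (by linarith [PT_adj_le (S := S) hw h hy hx])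

theorem lf_walk (hw : Adm w) (fr : Frame S a b) (p : latt.Walk y x)
    (hp : ∀ z ∈ p.support, z ∈ S) : lf w S a F x ≤ lf w S a F y + ww w p :=
  (lf_triangle hw fr (hp _ p.end_mem_support) (hp _ p.start_mem_support)).trans
    (by linarith [PT_le (S := S) hw p hp])

theorem lf_sub_le (h : ∀ i, F i ≤ F' i + δ) (x : V) : lf w S a F x ≤ lf w S a F' x + δ := by
  obtain ⟨i, hi⟩ := exists_lf w S a F' x
  have h1 := lf_le w S a F x i
  linarith [h i]

theorem abs_lf_sub_le (h : ∀ i, |F i - F' i| ≤ δ) (x : V) :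
    |lf w S a F x - lf w S a F' x| ≤ δ := by
  have h1 := lf_sub_le (w := w) (S := S) (a := a) (F := F) (F' := F') (δ := δ)
    (fun i => by linarith [(abs_le.1 (h i)).2]) x
  have h2 := lf_sub_le (w := w) (S := S) (a := a) (F := F') (F' := F) (δ := δ)
    (fun i => by linarith [(abs_le.1 (h i)).1]) x
  rw [abs_le]
  constructor <;> linarith

theorem lf_mono_weight (hw : Adm w) (fr : Frame S a b)
    (h : ∀ x y, latt.Adj x y → w x y ≤ w' x y) (hx : x ∈ S) :
    lf w S a F x ≤ lf w' S a F x := by
  obtain ⟨i, hi⟩ := exists_lf w' S a F x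
  have h1 := lf_le w S a F x i
  have h2 := PT_mono_weight hw h (fr.conn _ (fr.left i) _ hx)
  linarith

/-! ### Energy and excess -/

theorem en_le_lf_add_lf (hw : Adm w) (fr : Frame S a b) (hx : x ∈ S) :
    en w S a F b H ≤ lf w S a F x + lf w S b H x := by
  obtain ⟨i, hi⟩ := exists_lf w S a F x
  obtain ⟨j, hj⟩ := exists_lf w S b H x
  have h1 := en_le_ij w S a F b H i j
  have h2 := PT_triangle hw (fr.conn _ (fr.left i) _ hx) (fr.conn _ hx _ (fr.right j))
  rw [PT_comm hw (x := x)] at h2
  linarith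

theorem exc_nonneg (hw : Adm w) (fr : Frame S a b) (hx : x ∈ S) :
    0 ≤ exc w S a F b H x := by
  unfold exc
  linarith [en_le_lf_add_lf (F := F) (H := H) hw fr hx]

theorem en_swap (hw : Adm w) : en w S a F b H = en w S b H a F := by
  have key : ∀ (a b : ι → V) (F H : ι → ℝ), en w S a F b H ≤ en w S b H a F := by
    intro a b F H
    obtain ⟨i, j, hij⟩ := exists_en w S b H a F
    have h1 := en_le_ij w S a F b H j i
    rw [PT_comm hw] at h1
    linarith
  exact le_antisymm (key _ _ _ _) (key _ _ _ _)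

theorem exc_swap (hw : Adm w) (x : V) : exc w S a F b H x = exc w S b H a F x := by
  unfold exc
  rw [en_swap hw]
  ring

theorem vis_swap (hw : Adm w) : Vis w S a F b H x ↔ Vis w S b H a F x := by
  unfold Vis
  rw [exc_swap hw]

theorem use_swap (hw : Adm w) : Use w S a F b H y x ↔ Use w S b H a F x y := by
  unfold Use
  rw [en_swap hw, hw.symm x y]
  constructor
  · rintro ⟨h1, h2, h3, h4⟩
    exact ⟨h1.symm, h3, h2, by linarith⟩
  · rintro ⟨h1, h2, h3, h4⟩
    exact ⟨h1.symm, h3, h2, by linarith⟩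

theorem abs_en_sub_le (hF : ∀ i, |F i - F' i| ≤ δ) :
    |en w S a F b H - en w S a F' b H| ≤ δ := by
  have key : ∀ F F' : ι → ℝ, (∀ i, |F i - F' i| ≤ δ) →
      en w S a F b H ≤ en w S a F' b H + δ := by
    intro F F' hF
    obtain ⟨i, j, hij⟩ := exists_en w S a F' b H
    have h1 := en_le_ij w S a F b H i j
    linarith [(abs_le.1 (hF i)).2]
  have h1 := key F F' hF
  have h2 := key F' F fun i => by rw [abs_sub_comm]; exact hF i
  rw [abs_le]
  constructor <;> linarith

theorem abs_en_sub_le' (hH : ∀ i, |H i - H' i| ≤ δ) :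
    |en w S a F b H - en w S a F b H'| ≤ δ := by
  have key : ∀ H H' : ι → ℝ, (∀ i, |H i - H' i| ≤ δ) →
      en w S a F b H ≤ en w S a F b H' + δ := by
    intro H H' hH
    obtain ⟨i, j, hij⟩ := exists_en w S a F b H'
    have h1 := en_le_ij w S a F b H i j
    linarith [(abs_le.1 (hH j)).2]
  have h1 := key H H' hH
  have h2 := key H' H fun i => by rw [abs_sub_comm]; exact hH i
  rw [abs_le]
  constructor <;> linarith

/-- Moving both cost functions by at most `δ` moves the excess by at most `4 δ`. -/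
theorem abs_exc_sub_le (hF : ∀ i, |F i - F' i| ≤ δ) (hH : ∀ i, |H i - H' i| ≤ δ) (x : V) :
    |exc w S a F b H x - exc w S a F' b H' x| ≤ 4 * δ := by
  have h1 := abs_le.1 (abs_lf_sub_le (w := w) (S := S) (a := a) hF x)
  have h2 := abs_le.1 (abs_lf_sub_le (w := w) (S := S) (a := b) hH x)
  have h3 := abs_le.1 (abs_en_sub_le (w := w) (S := S) (a := a) (b := b) (H := H) hF)
  have h4 := abs_le.1 (abs_en_sub_le' (w := w) (S := S) (a := a) (b := b) (F := F') hH)
  unfold exc
  rw [abs_le]
  constructor <;> linarith [h1.1, h1.2, h2.1, h2.2, h3.1, h3.2, h4.1, h4.2]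

/-- Adding constants to the cost functions. -/
theorem lf_add_const (c : ℝ) (x : V) : lf w S a (fun i => F i + c) x = lf w S a F x + c := by
  obtain ⟨i, hi⟩ := exists_lf w S a (fun i => F i + c) x
  obtain ⟨j, hj⟩ := exists_lf w S a F x
  have h1 := lf_le w S a (fun i => F i + c) x j
  have h2 := lf_le w S a F x i
  apply le_antisymm <;> linarith

theorem en_add_const (c d : ℝ) :
    en w S a (fun i => F i + c) b (fun i => H i + d) = en w S a F b H + c + d := by
  obtain ⟨i, j, hij⟩ := exists_en w S a (fun i => F i + c) b (fun i => H i + d)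
  obtain ⟨i', j', hij'⟩ := exists_en w S a F b H
  have h1 := en_le_ij w S a (fun i => F i + c) b (fun i => H i + d) i' j'
  have h2 := en_le_ij w S a F b H i j
  apply le_antisymm <;> linarith

theorem exc_add_const (c d : ℝ) (x : V) :
    exc w S a (fun i => F i + c) b (fun i => H i + d) x = exc w S a F b H x := by
  unfold exc
  rw [lf_add_const, lf_add_const, en_add_const]
  ring

/-! ### Lines -/

omit [Nonempty ι] in
theorem en_le_cost (hw : Adm w) (L : Line S a b) : en w S a F b H ≤ L.cost w F H := by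
  have h1 := en_le_ij w S a F b H L.i L.j
  have h2 := PT_le (S := S) hw L.p L.inS
  unfold Line.cost
  linarith

end Fin

/-- Lipschitz functions along a walk. -/
theorem lip_walk {u : V → ℝ}
    (hu : ∀ z z', z ∈ S → z' ∈ S → latt.Adj z z' → u z' ≤ u z + w z z')
    (p : latt.Walk x y) (hp : ∀ z ∈ p.support, z ∈ S) : u y ≤ u x + ww w p := by
  induction p with
  | nil => rw [ww_nil]; simp
  | cons h p ih =>
    rename_i x' y' z'
    have h1 := hu x' y' (hp _ (by simp)) (hp _ (by simp)) h
    have h2 := ih fun z hz => hp z (by simp [hz])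
    rw [ww_cons]
    linarith

/-- Calibration: a function which is Lipschitz and below the left costs bounds the cost of
every line from below. -/
theorem calib_cost {u : V → ℝ}
    (hu : ∀ z z', z ∈ S → z' ∈ S → latt.Adj z z' → u z' ≤ u z + w z z')
    (ha : ∀ i, u (a i) ≤ F i) (L : Line S a b) : u (b L.j) + H L.j ≤ L.cost w F H := by
  have h1 := lip_walk hu L.p L.inS
  have h2 := ha L.i
  unfold Line.cost
  linarith

theorem lip_PT (hc : Conn S x y) {u : V → ℝ}
    (hu : ∀ z z', z ∈ S → z' ∈ S → latt.Adj z z' → u z' ≤ u z + w z z') :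
    u y ≤ u x + PT w S x y := by
  have : u y - u x ≤ PT w S x y := le_PT hc fun p hp => by
    have := lip_walk hu p hp
    linarith
  linarith

theorem calib_lf [Finite ι] [Nonempty ι] (fr : Frame S a b) {u : V → ℝ}
    (hu : ∀ z z', z ∈ S → z' ∈ S → latt.Adj z z' → u z' ≤ u z + w z z')
    (ha : ∀ i, u (a i) ≤ F i) (hx : x ∈ S) : u x ≤ lf w S a F x := by
  obtain ⟨i, hi⟩ := exists_lf w S a F x
  have h1 := lip_PT (fr.conn _ (fr.left i) _ hx) hu
  linarith [ha i]

/-- Calibration lemma. -/
theorem calib_en [Finite ι] [Nonempty ι] (fr : Frame S a b) {u : V → ℝ}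
    (hu : ∀ z z', z ∈ S → z' ∈ S → latt.Adj z z' → u z' ≤ u z + w z z')
    (ha : ∀ i, u (a i) ≤ F i) {c : ℝ} (hc : ∀ j, c ≤ u (b j) + H j) :
    c ≤ en w S a F b H := by
  obtain ⟨j, hj⟩ := exists_en' w S a F b H
  have h1 := calib_lf fr hu ha (fr.right j)
  linarith [hc j]

/-! ### Splitting walks -/

theorem ww_takeUntil_add_dropUntil (p : latt.Walk x y) (hz : z ∈ p.support) :
    ww w (p.takeUntil z hz) + ww w (p.dropUntil z hz) = ww w p := by
  conv_rhs => rw [← p.take_spec hz]
  rw [ww_append]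

theorem ww_takeUntil_le (hw : Adm w) (p : latt.Walk x y) (hz : z ∈ p.support) :
    ww w (p.takeUntil z hz) ≤ ww w p := by
  have := ww_takeUntil_add_dropUntil (w := w) p hz
  linarith [ww_nonneg hw (p.dropUntil z hz)]

theorem ww_dropUntil_le (hw : Adm w) (p : latt.Walk x y) (hz : z ∈ p.support) :
    ww w (p.dropUntil z hz) ≤ ww w p := by
  have := ww_takeUntil_add_dropUntil (w := w) p hz
  linarith [ww_nonneg hw (p.takeUntil z hz)]

theorem ww_bypass_le (hw : Adm w) (p : latt.Walk x y) : ww w p.bypass ≤ ww w p := by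
  induction p with
  | nil => exact le_refl _
  | cons h p ih =>
    simp only [SimpleGraph.Walk.bypass]
    split_ifs with hs
    · rw [ww_cons]
      linarith [ww_dropUntil_le hw p.bypass hs, hw.pos _ _ h]
    · rw [ww_cons, ww_cons]
      linarith

theorem ww_bypass_lt (hw : Adm w) (p : latt.Walk x y) (hp : ¬ p.IsPath) :
    ww w p.bypass < ww w p := by
  induction p with
  | nil => exact absurd SimpleGraph.Walk.IsPath.nil hp
  | cons h p ih =>
    simp only [SimpleGraph.Walk.bypass]
    split_ifs with hs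
    · rw [ww_cons]
      linarith [ww_dropUntil_le hw p.bypass hs, ww_bypass_le hw p, hw.pos _ _ h]
    · rw [ww_cons, ww_cons]
      have : ¬ p.IsPath := by
        intro h'
        apply hp
        rw [SimpleGraph.Walk.cons_isPath_iff]
        refine ⟨h', ?_⟩
        rwa [SimpleGraph.Walk.IsPath.bypass_eq_self h'] at hs
      linarith [ih this]


/-! ### Lines through a vertex or an edge -/

/-- The line made of a walk to `x` and a walk from `x`. -/
def Line.join {i j : ι} (p : latt.Walk (a i) x) (q : latt.Walk x (b j))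
    (hp : ∀ z ∈ p.support, z ∈ S) (hq : ∀ z ∈ q.support, z ∈ S) : Line S a b where
  i := i
  j := j
  p := p.append q
  inS := fun z hz => by
    rw [SimpleGraph.Walk.mem_support_append_iff] at hz
    rcases hz with hz | hz
    · exact hp z hz
    · exact hq z hz

section Fin2
variable [Finite ι] [Nonempty ι]

omit [Nonempty ι] in
theorem lf_takeUntil (hw : Adm w) (L : Line S a b) (hx : x ∈ L.p.support) :
    lf w S a F x ≤ F L.i + ww w (L.p.takeUntil x hx) := by
  have h1 := lf_le w S a F x L.i
  have h2 := PT_le (S := S) hw (L.p.takeUntil x hx) fun z hz =>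
    L.inS z (L.p.support_takeUntil_subset_support hx hz)
  linarith

omit [Nonempty ι] in
theorem lf_dropUntil (hw : Adm w) (L : Line S a b) (hx : x ∈ L.p.support) :
    lf w S b H x ≤ H L.j + ww w (L.p.dropUntil x hx) := by
  have h1 := lf_le w S b H x L.j
  have h2 := PT_le (S := S) hw (L.p.dropUntil x hx) fun z hz =>
    L.inS z (L.p.support_dropUntil_subset_support hx hz)
  rw [PT_comm hw] at h1
  linarith

/-- The cost of a line through `x` is at least `l x + r x`. -/
theorem lf_add_lf_le_cost (hw : Adm w) (L : Line S a b) (hx : x ∈ L.p.support) :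
    lf w S a F x + lf w S b H x ≤ L.cost w F H := by
  have h1 := lf_takeUntil (F := F) hw L hx
  have h2 := lf_dropUntil (H := H) hw L hx
  have h3 := ww_takeUntil_add_dropUntil (w := w) L.p hx
  unfold Line.cost
  linarith

/-- Every vertex on an optimal line is visited. -/
theorem vis_of_mem (hw : Adm w) (fr : Frame S a b) (L : Line S a b)
    (hL : L.cost w F H = en w S a F b H) (hx : x ∈ L.p.support) : Vis w S a F b H x := by
  refine ⟨L.inS x hx, ?_⟩
  have h1 := lf_add_lf_le_cost (F := F) (H := H) hw L hx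
  have h2 := exc_nonneg (F := F) (H := H) hw fr (L.inS x hx)
  unfold exc at h2 ⊢
  linarith

/-- There is a line through `x` of cost `l x + r x`. -/
theorem exists_line_through (hw : Adm w) (fr : Frame S a b) (hA : Att w S) (hx : x ∈ S)
    (F H : ι → ℝ) :
    ∃ L : Line S a b, x ∈ L.p.support ∧ L.cost w F H = lf w S a F x + lf w S b H x ∧
      ∃ (hx : x ∈ L.p.support), lf w S a F x = F L.i + ww w (L.p.takeUntil x hx) ∧
        lf w S b H x = H L.j + ww w (L.p.dropUntil x hx) := by
  obtain ⟨i, hi⟩ := exists_lf w S a F x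
  obtain ⟨j, hj⟩ := exists_lf w S b H x
  obtain ⟨p, hp, hp'⟩ := hA _ (fr.left i) _ hx
  obtain ⟨q, hq, hq'⟩ := hA _ hx _ (fr.right j)
  rw [PT_comm hw] at hj
  have hc : (Line.join p q hp hq).cost w F H = lf w S a F x + lf w S b H x := by
    simp only [Line.cost, Line.join, ww_append]
    linarith
  have hm : x ∈ (Line.join p q hp hq).p.support := by
    simp [Line.join]
  refine ⟨Line.join p q hp hq, hm, hc, hm, ?_⟩
  have h1 := lf_takeUntil (F := F) hw _ hm
  have h2 := lf_dropUntil (H := H) hw _ hm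
  have h3 := ww_takeUntil_add_dropUntil (w := w) (Line.join p q hp hq).p hm
  unfold Line.cost at hc
  constructor <;> linarith

theorem exists_opt_of_vis (hw : Adm w) (fr : Frame S a b) (hA : Att w S)
    (hx : Vis w S a F b H x) :
    ∃ L : Line S a b, L.cost w F H = en w S a F b H ∧ x ∈ L.p.support := by
  obtain ⟨L, hL, hc, -⟩ := exists_line_through hw fr hA hx.1 F H
  refine ⟨L, ?_, hL⟩
  have := hx.2
  unfold exc at this
  linarith

/-- Optimal lines exist. -/
theorem exists_opt (_hw : Adm w) (fr : Frame S a b) (hA : Att w S) (F H : ι → ℝ) :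
    ∃ L : Line S a b, L.cost w F H = en w S a F b H := by
  obtain ⟨i, j, hij⟩ := exists_en w S a F b H
  obtain ⟨p, hp, hp'⟩ := hA _ (fr.left i) _ (fr.right j)
  exact ⟨⟨i, j, p, hp⟩, by unfold Line.cost; linarith⟩

theorem vis_iff (hw : Adm w) (fr : Frame S a b) (hA : Att w S) :
    Vis w S a F b H x ↔ ∃ L : Line S a b, L.cost w F H = en w S a F b H ∧ x ∈ L.p.support :=
  ⟨exists_opt_of_vis hw fr hA, fun ⟨L, h1, h2⟩ => vis_of_mem hw fr L h1 h2⟩

/-- On an optimal line the left part is optimal. -/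
theorem lf_eq_takeUntil (hw : Adm w) (fr : Frame S a b) (L : Line S a b)
    (hL : L.cost w F H = en w S a F b H) (hx : x ∈ L.p.support) :
    lf w S a F x = F L.i + ww w (L.p.takeUntil x hx) := by
  have h1 := lf_takeUntil (F := F) hw L hx
  have h2 := lf_dropUntil (H := H) hw L hx
  have h3 := ww_takeUntil_add_dropUntil (w := w) L.p hx
  have h4 := en_le_lf_add_lf (F := F) (H := H) hw fr (L.inS x hx)
  unfold Line.cost at hL
  linarith

/-- On an optimal line the right part is optimal. -/
theorem lf_eq_dropUntil (hw : Adm w) (fr : Frame S a b) (L : Line S a b)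
    (hL : L.cost w F H = en w S a F b H) (hx : x ∈ L.p.support) :
    lf w S b H x = H L.j + ww w (L.p.dropUntil x hx) := by
  have h1 := lf_takeUntil (F := F) hw L hx
  have h2 := lf_dropUntil (H := H) hw L hx
  have h3 := ww_takeUntil_add_dropUntil (w := w) L.p hx
  have h4 := en_le_lf_add_lf (F := F) (H := H) hw fr (L.inS x hx)
  unfold Line.cost at hL
  linarith

/-- Optimal lines are simple. -/
theorem isPath_of_opt (hw : Adm w) (L : Line S a b)
    (hL : L.cost w F H = en w S a F b H) : L.p.IsPath := by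
  by_contra h
  have h1 := ww_bypass_lt hw L.p h
  have h2 := en_le_cost (F := F) (H := H) hw
    (⟨L.i, L.j, L.p.bypass, fun z hz =>
      L.inS z (L.p.support_bypass_subset_support hz)⟩ : Line S a b)
  unfold Line.cost at h2 hL
  simp only at h2
  linarith

end Fin2

end Vale.Agent.P158.T1
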