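import Vale.Agent.P158.T1.Base
import Mathlib.Data.Set.Finite.List
import Mathlib.Data.List.Perm.Subperm

/-! Used edges, attainment of passage times, finite balls. -/

namespace Vale.Agent.P158.T1

open Filter

variable {ι : Type*} {w w' : V → V → ℝ} {S : Set V} {a b : ι → V} {F F' H H' : ι → ℝ}
  {x y z : V} {δ : ℝ}

/-- Splitting a walk at a dart. -/
theorem exists_split {x y : V} (p : latt.Walk x y) (d : latt.Dart) (hd : d ∈ p.darts) :
    ∃ (p₁ : latt.Walk x d.fst) (p₂ : latt.Walk d.snd y),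
      p = p₁.append (SimpleGraph.Walk.cons d.adj p₂) := by
  induction p with
  | nil => simp at hd
  | cons h p ih =>
    rw [SimpleGraph.Walk.darts_cons, List.mem_cons] at hd
    rcases hd with hd | hd
    · subst hd
      exact ⟨SimpleGraph.Walk.nil, p, rfl⟩
    · obtain ⟨p₁, p₂, hp⟩ := ih hd
      refine ⟨SimpleGraph.Walk.cons h p₁, p₂, ?_⟩
      rw [SimpleGraph.Walk.cons_append, ← hp]

section Fin
variable [Finite ι] [Nonempty ι]

/-- Darts of optimal lines are used. -/
theorem use_of_dart (hw : Adm w) (fr : Frame S a b) (L : Line S a b)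
    (hL : L.cost w F H = en w S a F b H) (d : latt.Dart) (hd : d ∈ L.p.darts) :
    Use w S a F b H d.fst d.snd := by
  obtain ⟨p₁, p₂, hp⟩ := exists_split L.p d hd
  have hS1 : ∀ z ∈ p₁.support, z ∈ S := fun z hz => L.inS z (by rw [hp]; simp [hz])
  have hS2 : ∀ z ∈ p₂.support, z ∈ S := fun z hz => L.inS z (by rw [hp]; simp [hz])
  have hf : d.fst ∈ S := hS1 _ p₁.end_mem_support
  have hs : d.snd ∈ S := hS2 _ p₂.start_mem_support
  refine ⟨d.adj, hf, hs, ?_⟩
  have h1 := lf_le w S a F d.fst L.i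
  have h2 := PT_le (S := S) hw p₁ hS1
  have h3 := lf_le w S b H d.snd L.j
  have h4 := PT_le (S := S) hw p₂ hS2
  rw [PT_comm hw] at h4
  have h5 := lf_adj (F := F) hw fr d.adj hf hs
  have h6 := en_le_lf_add_lf (F := F) (H := H) hw fr hs
  unfold Line.cost at hL
  rw [hp, ww_append, ww_cons] at hL
  linarith

/-- A used edge lies on an optimal line. -/
theorem exists_opt_of_use (hw : Adm w) (fr : Frame S a b) (hA : Att w S)
    (h : Use w S a F b H y x) :
    ∃ (L : Line S a b) (p₁ : latt.Walk (a L.i) y) (p₂ : latt.Walk x (b L.j)),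
      L.cost w F H = en w S a F b H ∧ L.p = p₁.append (SimpleGraph.Walk.cons h.1 p₂) := by
  obtain ⟨hadj, hy, hx, he⟩ := h
  obtain ⟨i, hi⟩ := exists_lf w S a F y
  obtain ⟨j, hj⟩ := exists_lf w S b H x
  obtain ⟨p, hp, hp'⟩ := hA _ (fr.left i) _ hy
  obtain ⟨q, hq, hq'⟩ := hA _ hx _ (fr.right j)
  rw [PT_comm hw] at hj
  refine ⟨Line.join p (SimpleGraph.Walk.cons hadj q) hp ?_, p, q, ?_, rfl⟩
  · intro z hz
    rw [SimpleGraph.Walk.support_cons, List.mem_cons] at hz
    rcases hz with rfl | hz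
    · exact hy
    · exact hq z hz
  · simp only [Line.cost, Line.join, ww_append, ww_cons]
    linarith

theorem Use.lf_eq (hw : Adm w) (fr : Frame S a b) (h : Use w S a F b H y x) :
    lf w S a F x = lf w S a F y + w y x := by
  obtain ⟨hadj, hy, hx, he⟩ := h
  have h1 := lf_adj (F := F) hw fr hadj hy hx
  have h2 := en_le_lf_add_lf (F := F) (H := H) hw fr hx
  linarith

theorem Use.rf_eq (hw : Adm w) (fr : Frame S a b) (h : Use w S a F b H y x) :
    lf w S b H y = w y x + lf w S b H x := by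
  have := Use.lf_eq hw fr.swap ((use_swap hw).1 h)
  rw [this, hw.symm x y]
  ring

theorem Use.vis_left (hw : Adm w) (fr : Frame S a b) (h : Use w S a F b H y x) :
    Vis w S a F b H y := by
  refine ⟨h.2.1, ?_⟩
  have h1 := h.rf_eq hw fr
  have h2 := h.2.2.2
  unfold exc
  linarith

theorem Use.vis_right (hw : Adm w) (fr : Frame S a b) (h : Use w S a F b H y x) :
    Vis w S a F b H x := by
  refine ⟨h.2.2.1, ?_⟩
  have h1 := h.lf_eq hw fr
  have h2 := h.2.2.2
  unfold exc
  linarith

/-- The left function is a passage-time distance along optimal lines. -/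
theorem PT_eq_of_opt (hw : Adm w) (fr : Frame S a b) (L : Line S a b)
    (hL : L.cost w F H = en w S a F b H) {p₁ : latt.Walk (a L.i) x} {q : latt.Walk x y}
    {p₂ : latt.Walk y (b L.j)} (hp : L.p = p₁.append (q.append p₂)) :
    ww w q = PT w S x y ∧ lf w S a F y = lf w S a F x + ww w q ∧
      lf w S b H x = lf w S b H y + ww w q := by
  have hS1 : ∀ z ∈ p₁.support, z ∈ S := fun z hz => L.inS z (by rw [hp]; simp [hz])
  have hS2 : ∀ z ∈ q.support, z ∈ S := fun z hz => L.inS z (by rw [hp]; simp [hz])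
  have hS3 : ∀ z ∈ p₂.support, z ∈ S := fun z hz => L.inS z (by rw [hp]; simp [hz])
  have hx : x ∈ S := hS1 _ p₁.end_mem_support
  have hy : y ∈ S := hS3 _ p₂.start_mem_support
  have h1 := lf_le w S a F x L.i
  have h2 := PT_le (S := S) hw p₁ hS1
  have h3 := lf_le w S b H y L.j
  have h4 := PT_le (S := S) hw p₂ hS3
  rw [PT_comm hw] at h4
  have h5 := PT_le (S := S) hw q hS2
  have h6 := lf_triangle (F := F) hw fr hy hx
  have h7 := lf_triangle (F := H) hw fr.swap hx hy
  rw [PT_comm hw (x := y)] at h7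
  have h8 := en_le_lf_add_lf (F := F) (H := H) hw fr hx
  have h9 := en_le_lf_add_lf (F := F) (H := H) hw fr hy
  unfold Line.cost at hL
  rw [hp, ww_append, ww_append] at hL
  refine ⟨by linarith, by linarith, by linarith⟩

end Fin

/-! ### Attainment -/

theorem finite_nodup_lists {α : Type*} {Z : Set α} (hZ : Z.Finite) :
    {l : List α | l.Nodup ∧ ∀ z ∈ l, z ∈ Z}.Finite := by
  classical
  have : Finite Z := hZ
  refine ((List.finite_length_le Z hZ.toFinset.card).image (List.map Subtype.val)).subset ?_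
  rintro l ⟨hl, hl'⟩
  refine ⟨l.attach.map fun z => ⟨z.1, hl' z.1 z.2⟩, ?_, ?_⟩
  · simp only [Set.mem_ofPred_eq, List.length_map, List.length_attach]
    rw [← List.toFinset_card_of_nodup hl]
    exact Finset.card_le_card fun z hz => by
      rw [Set.Finite.mem_toFinset]
      exact hl' z (by simpa using hz)
  · rw [List.map_map]
    exact l.attach_map_subtype_val

theorem att_aux (hw : Adm w) (hc : Conn S x y) {Z : Set V} (hZ : Z.Finite)
    (h : ∀ p : latt.Walk x y, p.IsPath → (∀ z ∈ p.support, z ∈ S) →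
      ww w p ≤ PT w S x y + 1 → ∀ z ∈ p.support, z ∈ Z) :
    ∃ p : latt.Walk x y, (∀ z ∈ p.support, z ∈ S) ∧ ww w p = PT w S x y := by
  classical
  let P : Set (latt.Walk x y) :=
    {p | p.IsPath ∧ (∀ z ∈ p.support, z ∈ S) ∧ ww w p ≤ PT w S x y + 1}
  have hP : P.Finite := by
    refine Set.Finite.of_finite_image (f := fun p => p.support)
      ((finite_nodup_lists hZ).subset ?_) ?_
    · rintro _ ⟨p, hp, rfl⟩
      exact ⟨hp.1.support_nodup, h p hp.1 hp.2.1 hp.2.2⟩
    · intro p _ q _ hpq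
      exact SimpleGraph.Walk.ext_support hpq
  have hne : P.Nonempty := by
    obtain ⟨p, hp, hp'⟩ := exists_walk hw hc one_pos
    exact ⟨p.bypass, p.bypass_isPath, fun z hz => hp z (p.support_bypass_subset_support hz),
      (ww_bypass_le hw p).trans hp'.le⟩
  obtain ⟨p₀, hp₀, hmin⟩ := hP.exists_minimalFor (fun p => ww w p) P hne
  refine ⟨p₀, hp₀.2.1, le_antisymm (le_PT hc fun q hq => ?_) (PT_le hw p₀ hp₀.2.1)⟩
  by_cases hq1 : ww w q ≤ PT w S x y + 1
  · have hqP : q.bypass ∈ P := ⟨q.bypass_isPath,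
      fun z hz => hq z (q.support_bypass_subset_support hz), (ww_bypass_le hw q).trans hq1⟩
    have := ww_bypass_le hw q
    by_contra hlt
    push Not at hlt
    have h1 : ww w q.bypass ≤ ww w p₀ := by linarith
    have h2 := hmin hqP h1
    simp only at h2
    linarith
  · push Not at hq1
    linarith [hp₀.2.2]

/-- Passage times are attained in finite connected domains. -/
theorem att_of_finite (hw : Adm w) (hS : S.Finite) (hc : ∀ x ∈ S, ∀ y ∈ S, Conn S x y) :
    Att w S := fun x hx y hy => att_aux hw (hc x hx y hy) hS fun _ _ hp _ => hp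

/-- Balls are finite. -/
def FB (w : V → V → ℝ) : Prop := ∀ s : ℝ, {z : V | T w 0 z ≤ s}.Finite

theorem att_of_fb (hw : Adm w) (hf : FB w) (hc : ∀ x ∈ S, ∀ y ∈ S, Conn S x y) :
    Att w S := by
  intro x hx y hy
  refine att_aux hw (hc x hx y hy) (hf (T w 0 x + (PT w S x y + 1))) ?_
  intro p _ _ hp' z hz
  have h1 := T_triangle hw 0 x z
  have h2 := T_le hw (p.takeUntil z hz)
  have h3 := ww_takeUntil_le hw p hz
  show T w 0 z ≤ _
  linarith

/-- Changing finitely many weights to positive values preserves finiteness of balls. -/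
theorem fb_of_finite_change (hw : Adm w) (hw' : Adm w') (hf : FB w)
    (hfin : {q : V × V | latt.Adj q.1 q.2 ∧ w' q.1 q.2 ≠ w q.1 q.2}.Finite) : FB w' := by
  classical
  -- a uniform ratio
  obtain ⟨c, hc0, hc1, hc⟩ : ∃ c : ℝ, 0 < c ∧ c ≤ 1 ∧ ∀ q : V × V,
      latt.Adj q.1 q.2 → c * w q.1 q.2 ≤ w' q.1 q.2 := by
    have key : ∀ s : Finset (V × V), (∀ q ∈ s, latt.Adj q.1 q.2) →
        ∃ c : ℝ, 0 < c ∧ c ≤ 1 ∧ ∀ q ∈ s, c * w q.1 q.2 ≤ w' q.1 q.2 := by
      intro s
      induction s using Finset.induction_on with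
      | empty => exact fun _ => ⟨1, one_pos, le_refl _, by simp⟩
      | insert q s hq ih =>
        intro hs
        obtain ⟨c, hc0, hc1, hc⟩ := ih fun q hq => hs q (by simp [hq])
        have hq' := hs q (by simp)
        have p1 := hw.pos _ _ hq'
        have p2 := hw'.pos _ _ hq'
        refine ⟨min c (w' q.1 q.2 / w q.1 q.2), lt_min hc0 (div_pos p2 p1),
          (min_le_left _ _).trans hc1, ?_⟩
        intro q₀ hq₀
        rw [Finset.mem_insert] at hq₀
        rcases hq₀ with rfl | hq₀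
        · calc min c (w' q₀.1 q₀.2 / w q₀.1 q₀.2) * w q₀.1 q₀.2
              ≤ w' q₀.1 q₀.2 / w q₀.1 q₀.2 * w q₀.1 q₀.2 :=
                mul_le_mul_of_nonneg_right (min_le_right _ _) p1.le
            _ = w' q₀.1 q₀.2 := div_mul_cancel₀ _ p1.ne'
        · have p3 := hw.pos _ _ (hs q₀ (by simp [hq₀]))
          exact (mul_le_mul_of_nonneg_right (min_le_left _ _) p3.le).trans (hc q₀ hq₀)
    obtain ⟨c, hc0, hc1, hc⟩ := key hfin.toFinset fun q hq => by
      rw [Set.Finite.mem_toFinset] at hq; exact hq.1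
    refine ⟨c, hc0, hc1, fun q hq => ?_⟩
    by_cases h : w' q.1 q.2 = w q.1 q.2
    · rw [h]
      have := hw.pos _ _ hq
      nlinarith
    · exact hc q (by rw [Set.Finite.mem_toFinset]; exact ⟨hq, h⟩)
  have hww : ∀ (x y : V) (p : latt.Walk x y), c * ww w p ≤ ww w' p := by
    intro x y p
    induction p with
    | nil => simp [ww_nil]
    | cons h p ih =>
      rw [ww_cons, ww_cons, mul_add]
      exact add_le_add (hc (_, _) h) ih
  have hT : ∀ z, c * T w 0 z ≤ T w' 0 z := by
    intro z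
    refine le_PT (conn_univ 0 z) fun p _ => ?_
    exact (mul_le_mul_of_nonneg_left (T_le hw p) hc0.le).trans (hww _ _ p)
  intro s
  refine (hf (s / c)).subset fun z hz => ?_
  have h1 : T w' 0 z ≤ s := hz
  show T w 0 z ≤ s / c
  rw [le_div_iff₀ hc0]
  linarith [hT z]

end Vale.Agent.P158.T1
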