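import Vale.Agent.P158.T1.PlanB

/-! Measurability of the events of Plan B. -/

namespace Vale.Agent.P158.T1

open Filter MeasureTheory
open scoped ENNReal

theorem measurable_fz (n : ℕ) (t₀ : Env) : Measurable (fz n t₀) := by
  classical
  refine measurable_pi_lambda _ fun e => ?_
  unfold fz
  by_cases h : e ∈ tE 0 n
  · simp only [if_pos h]; exact measurable_pi_apply _
  · simp only [if_neg h]; exact measurable_const

variable {ι : Type} {S : Set V} {a b : ι → V}

instance [Countable ι] : Countable (Line S a b) := by
  have : Function.Injective (fun L : Line S a b =>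
      (⟨L.i, L.j, L.p⟩ : Σ i : ι, Σ j : ι, latt.Walk (a i) (b j))) := by
    rintro ⟨i, j, p, hp⟩ ⟨i', j', p', hp'⟩ h
    simp only [Sigma.mk.injEq] at h
    obtain ⟨rfl, h⟩ := h
    simp only [heq_eq_eq, Sigma.mk.injEq] at h
    obtain ⟨rfl, h⟩ := h
    simp only [heq_eq_eq] at h
    subst h
    rfl
  exact this.countable

theorem measurable_lf [Countable ι] (S : Set V) (a : ι → V) (F : ι → ℝ) (x : V) :
    Measurable fun t : Env => lf (wt t) S a F x :=
  Measurable.iInf fun i => measurable_const.add (measurable_PT S (a i) x)

theorem measurable_en [Countable ι] (S : Set V) (a : ι → V) (F : ι → ℝ) (b : ι → V)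
    (H : ι → ℝ) : Measurable fun t : Env => en (wt t) S a F b H :=
  Measurable.iInf fun j => (measurable_lf S a F (b j)).add measurable_const

theorem measurable_enk [Countable ι] (S : Set V) (a b : ι → V) (c : Chain ι) (k : ℕ) :
    Measurable fun t : Env => enk t S a b c k := measurable_en S a _ b _

theorem measurable_cost (F H : ι → ℝ) (L : Line S a b) :
    Measurable fun t : Env => L.cost (wt t) F H :=
  (measurable_const.add (measurable_ww L.p)).add measurable_const

theorem measurable_hvcard (β : ℝ) (z : V) (r s : ℕ) {x y : V} (p : latt.Walk x y) :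
    Measurable fun t : Env => (hv β t z r s p).card := by
  classical
  unfold hv
  simp only [Finset.card_filter]
  refine Finset.measurable_sum _ fun e _ => ?_
  by_cases h : e ∉ tE z r ∧ e ∈ tE z s
  · have : (fun t : Env => if e ∉ tE z r ∧ e ∈ tE z s ∧ β ≤ t e then 1 else 0) =
        fun t : Env => if β ≤ t e then 1 else 0 := by
      funext t
      simp [h.1, h.2]
    rw [this]
    exact Measurable.ite (measurableSet_le measurable_const (measurable_pi_apply e))
      measurable_const measurable_const
  · have : (fun t : Env => if e ∉ tE z r ∧ e ∈ tE z s ∧ β ≤ t e then 1 else 0) =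
        fun t : Env => 0 := by
      funext t
      rw [if_neg]
      exact fun h' => h ⟨h'.1, h'.2.1⟩
    rw [this]
    exact measurable_const

theorem measurable_AG (β : ℝ) (z : V) (r s : ℕ) : Measurable fun t : Env => AG β t z r s := by
  unfold AG
  refine Measurable.forall fun x => Measurable.forall fun y => Measurable.forall fun p =>
    (mconst _).imp ((mconst _).imp ?_)
  have h := measurable_hvcard β z r s p
  exact measurableSet_setOfPred.1 (h (DiscreteMeasurableSpace.forall_measurableSet
    {m : ℕ | s ≤ r + 8 * m}))

theorem measurable_BR [Countable ι] (S : Set V) (a : ι → V) (F F' : ι → ℝ) (b : ι → V)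
    (H : ι → ℝ) (z : V) (R : ℕ) : Measurable fun t : Env => BR (wt t) S a F F' b H z R := by
  unfold BR
  have e : ∀ (F : ι → ℝ) (L : Line S a b), Measurable fun t : Env =>
      L.cost (wt t) F H = en (wt t) S a F b H := fun F L =>
    measurableSet_setOfPred.1 (measurableSet_eq_fun (measurable_cost F H L)
      (measurable_en S a F b H))
  refine Measurable.exists fun u => Measurable.exists fun u' => Measurable.exists fun v =>
    (mconst _).and ((mconst _).and ((mconst _).and ((mconst _).and ((mconst _).and
      (Measurable.and ?_ (Measurable.and ?_ ?_))))))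
  · exact Measurable.forall fun L => (e F L).imp (mconst _)
  · exact Measurable.forall fun L => (e F' L).imp (mconst _)
  · exact Measurable.exists fun L => (e F' L).and (mconst _)

theorem measurable_BRk [Countable ι] (S : Set V) (a b : ι → V) (c : Chain ι) (z : V)
    (R k : ℕ) : Measurable fun t : Env => BRk t S a b c z R k := by
  unfold BRk
  exact ((mconst _).and ((measurable_BR _ _ _ _ _ _ _ _).or (measurable_BR _ _ _ _ _ _ _ _))).or
    ((mconst _).and ((measurable_BR _ _ _ _ _ _ _ _).or (measurable_BR _ _ _ _ _ _ _ _)))

theorem measurable_JV [Countable ι] (S : Set V) (a b : ι → V) (c : Chain ι) (z : V)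
    (r k : ℕ) : Measurable fun t : Env => JV t S a b c z r k :=
  mlt (measurable_enk _ _ _ _ _) (measurable_enk _ _ _ _ _)

/-- Measurability module. -/
theorem meas : MeasStmt := by
  intro ι _ _ S a b n t₀ c z r s R k β
  have h := measurable_fz n t₀
  refine ⟨?_, ?_, ?_⟩
  · exact h (measurable_JV S a b c z r k).setOf
  · exact h (measurable_AG β z r s).setOf
  · exact h (measurable_BRk S a b c z R k).setOf

end Vale.Agent.P158.T1
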