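import Vale.Agent.P158.T1.Frz
import Mathlib.Probability.Independence.InfinitePi
import Mathlib.Probability.Independence.Integration
import Mathlib.Analysis.SpecificLimits.Basic

/-! Peierls estimates: long self-avoiding walks have many heavy edges. -/

namespace Vale.Agent.P158.T1.Pe

open Filter MeasureTheory
open scoped ENNReal

/-! ### Counting -/

/-- The four directions. -/
def stp : Fin 4 → V := ![(1, 0), (-1, 0), (0, 1), (0, -1)]

theorem adj_stp (x : V) (i : Fin 4) : latt.Adj x (x + stp i) := by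
  fin_cases i <;> simp [latt, stp]

theorem exists_stp {x y : V} (h : latt.Adj x y) : ∃ i, y = x + stp i := by
  have h' : |x.1 - y.1| + |x.2 - y.2| = 1 := h
  have h1 := abs_nonneg (x.1 - y.1)
  have h2 := abs_nonneg (x.2 - y.2)
  rcases (by omega : (|x.1 - y.1| = 1 ∧ |x.2 - y.2| = 0) ∨ (|x.1 - y.1| = 0 ∧ |x.2 - y.2| = 1))
    with ⟨e1, e2⟩ | ⟨e1, e2⟩
  · rw [abs_eq_zero, sub_eq_zero] at e2
    rcases (abs_eq (by norm_num)).1 e1 with e | e
    · exact ⟨1, by ext <;> simp [stp] <;> omega⟩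
    · exact ⟨0, by ext <;> simp [stp] <;> omega⟩
  · rw [abs_eq_zero, sub_eq_zero] at e1
    rcases (abs_eq (by norm_num)).1 e2 with e | e
    · exact ⟨3, by ext <;> simp [stp] <;> omega⟩
    · exact ⟨2, by ext <;> simp [stp] <;> omega⟩

/-- Box as a finset. -/
noncomputable def bxF (z : V) (r : ℕ) : Finset V := Finset.Icc (z.1 - r, z.2 - r) (z.1 + r, z.2 + r)

theorem mem_bxF {z x : V} {r : ℕ} : x ∈ bxF z r ↔ x ∈ bx z r := by
  unfold bxF
  rw [Finset.mem_Icc, Prod.le_def, Prod.le_def, mem_bx, abs_le, abs_le]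
  constructor
  · rintro ⟨⟨h1, h2⟩, h3, h4⟩
    simp only at h1 h2 h3 h4
    exact ⟨⟨by linarith, by linarith⟩, by linarith, by linarith⟩
  · rintro ⟨⟨h1, h3⟩, h2, h4⟩
    exact ⟨⟨by simp only; linarith, by simp only; linarith⟩, by simp only; linarith,
      by simp only; linarith⟩

theorem card_bxF (z : V) (r : ℕ) : (bxF z r).card = (2 * r + 1) ^ 2 := by
  unfold bxF
  rw [← Finset.Icc_product_Icc, Finset.card_product, Int.card_Icc, Int.card_Icc, pow_two]
  congr 1 <;> omega

/-- The edge from `x` in direction `i`. -/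
def sedge (q : V × Fin 4) : latt.edgeSet := ⟨s(q.1, q.1 + stp q.2), adj_stp q.1 q.2⟩

theorem card_edges_le (X : Finset V) (E : Finset latt.edgeSet)
    (h : ∀ e ∈ E, ∃ x ∈ e.1, x ∈ X) : E.card ≤ 4 * X.card := by
  classical
  have hsub : E ⊆ (X ×ˢ (Finset.univ : Finset (Fin 4))).image sedge := by
    intro e he
    obtain ⟨x, hx, hxX⟩ := h e he
    rw [Finset.mem_image]
    obtain ⟨y, hy⟩ := Sym2.mem_iff_exists.1 hx
    have hadj : latt.Adj x y := by
      have := e.2
      rw [hy] at this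
      exact this
    obtain ⟨i, hi⟩ := exists_stp hadj
    refine ⟨(x, i), by simp [hxX], ?_⟩
    apply Subtype.ext
    show s(x, x + stp i) = e.1
    rw [hy, hi]
  calc E.card ≤ _ := Finset.card_le_card hsub
    _ ≤ (X ×ˢ (Finset.univ : Finset (Fin 4))).card := Finset.card_image_le
    _ = 4 * X.card := by rw [Finset.card_product]; simp [mul_comm]

theorem card_tF_le (z : V) (r : ℕ) : (tF z r).card ≤ 4 * (2 * r + 1) ^ 2 := by
  rw [← card_bxF z r]
  exact card_edges_le _ _ fun e he => by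
    obtain ⟨x, hx, hx'⟩ := mem_tF.1 he
    exact ⟨x, hx, mem_bxF.2 hx'⟩

theorem card_ring (z : V) (r : ℕ) : (bxF z (r + 1) \ bxF z r).card = 8 * (r + 1) := by
  have hsub : bxF z r ⊆ bxF z (r + 1) := fun x hx =>
    mem_bxF.2 (bx_mono (Nat.le_add_right r 1) (mem_bxF.1 hx))
  rw [Finset.card_sdiff_of_subset hsub, card_bxF, card_bxF]
  have : (2 * (r + 1) + 1) ^ 2 = (2 * r + 1) ^ 2 + 8 * (r + 1) := by ring
  omega

theorem card_rF_le (z : V) (r : ℕ) : (rF z r).card ≤ 32 * (r + 1) := by
  have h := card_edges_le (bxF z (r + 1) \ bxF z r) (rF z r) fun e he => by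
    obtain ⟨e, he'⟩ := e
    have h := mem_rF.1 he
    induction e using Sym2.ind with
    | _ u v =>
      refine ⟨u, by simp, ?_⟩
      have := h u (by simp)
      rw [Finset.mem_sdiff, mem_bxF, mem_bxF]
      exact this
  rw [card_ring] at h
  omega

open Classical in
/-- Walks of length `n` from `x`. -/
noncomputable def WL : (n : ℕ) → (x : V) → Finset (Σ y, latt.Walk x y)
  | 0, x => {⟨x, SimpleGraph.Walk.nil⟩}
  | n + 1, x => (Finset.univ : Finset (Fin 4)).biUnion fun i =>
      (WL n (x + stp i)).image fun q => ⟨q.1, SimpleGraph.Walk.cons (adj_stp x i) q.2⟩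

theorem card_WL (n : ℕ) (x : V) : (WL n x).card ≤ 4 ^ n := by
  classical
  induction n generalizing x with
  | zero => simp [WL]
  | succ n ih =>
    unfold WL
    refine Finset.card_biUnion_le.trans ?_
    calc ∑ i : Fin 4, ((WL n (x + stp i)).image _).card ≤ ∑ _i : Fin 4, 4 ^ n :=
          Finset.sum_le_sum fun i _ => Finset.card_image_le.trans (ih _)
      _ = 4 ^ (n + 1) := by simp [pow_succ, mul_comm]

theorem mem_WL {x y : V} (p : latt.Walk x y) : (⟨y, p⟩ : Σ y, latt.Walk x y) ∈ WL p.length x := by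
  classical
  induction p with
  | nil => simp [WL]
  | cons h p ih =>
    obtain ⟨i, hi⟩ := exists_stp h
    subst hi
    rw [SimpleGraph.Walk.length_cons]
    unfold WL
    rw [Finset.mem_biUnion]
    refine ⟨i, Finset.mem_univ _, ?_⟩
    rw [Finset.mem_image]
    exact ⟨_, ih, rfl⟩

/-! ### Edges of walks -/

theorem ww_eq_sum {t : Env} {x y : V} {p : latt.Walk x y} (hp : p.IsPath) :
    ww (wt t) p = ∑ e ∈ pe p, t e := by
  classical
  induction p with
  | nil => simp [pe, ww_nil]
  | cons h p ih =>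
    rename_i u v w
    rw [SimpleGraph.Walk.cons_isPath_iff] at hp
    have hpe : pe (SimpleGraph.Walk.cons h p) =
        insert (⟨s(u, v), h⟩ : latt.edgeSet) (pe p) := by
      ext e
      simp only [mem_pe, SimpleGraph.Walk.darts_cons, List.mem_cons, Finset.mem_insert]
      constructor
      · rintro ⟨d, rfl | hd, rfl⟩
        · left; rfl
        · right; exact ⟨d, hd, rfl⟩
      · rintro (rfl | ⟨d, hd, rfl⟩)
        · exact ⟨_, Or.inl rfl, rfl⟩
        · exact ⟨d, Or.inr hd, rfl⟩
    have hnot : (⟨s(u, v), h⟩ : latt.edgeSet) ∉ pe p := by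
      intro hm
      rw [mem_pe] at hm
      obtain ⟨d, hd, he⟩ := hm
      have he' : d.edge = s(u, v) := congrArg Subtype.val he
      have : s(u, v) ∈ p.edges := by
        rw [← he']
        exact List.mem_map_of_mem hd
      exact hp.2 (SimpleGraph.Walk.fst_mem_support_of_mem_edges p this)
    rw [ww_cons, ih hp.1, hpe, Finset.sum_insert hnot, wt_eq t h]

theorem card_pe {x y : V} {p : latt.Walk x y} (hp : p.IsPath) : (pe p).card = p.length := by
  have h := ww_eq_sum (t := fun _ => 1) hp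
  have h2 : ww (wt fun _ => 1) p = p.length := by
    clear h hp
    induction p with
    | nil => simp [ww_nil]
    | cons h p ih =>
      rw [ww_cons, ih, wt_eq _ h]
      push_cast [SimpleGraph.Walk.length_cons]
      ring
  rw [h2] at h
  simp at h
  exact_mod_cast h.symm

theorem pe_bypass_subset {x y : V} (p : latt.Walk x y) : pe p.bypass ⊆ pe p := by
  intro e he
  rw [mem_pe] at he ⊢
  obtain ⟨d, hd, rfl⟩ := he
  exact ⟨d, p.darts_bypass_subset_darts hd, rfl⟩

theorem pe_append {x y z : V} (p : latt.Walk x y) (q : latt.Walk y z) :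
    pe (p.append q) = pe p ∪ pe q := by
  ext e
  simp only [mem_pe, SimpleGraph.Walk.darts_append, List.mem_append, Finset.mem_union]
  constructor
  · rintro ⟨d, hd | hd, rfl⟩
    · exact Or.inl ⟨d, hd, rfl⟩
    · exact Or.inr ⟨d, hd, rfl⟩
  · rintro (⟨d, hd, rfl⟩ | ⟨d, hd, rfl⟩)
    · exact ⟨d, Or.inl hd, rfl⟩
    · exact ⟨d, Or.inr hd, rfl⟩

/-- The weight of a walk is at least the sum over its edges. -/
theorem sum_pe_le_ww {t : Env} (ht : ∀ e, 0 < t e) {x y : V} (p : latt.Walk x y)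
    {s : Finset latt.edgeSet} (hs : s ⊆ pe p) : ∑ e ∈ s, t e ≤ ww (wt t) p := by
  classical
  refine (Finset.sum_le_sum_of_subset_of_nonneg hs fun e _ _ => (ht e).le).trans ?_
  clear hs
  induction p with
  | nil => simp [pe, ww_nil]
  | cons h p ih =>
    rename_i u v w
    have hpe : pe (SimpleGraph.Walk.cons h p) =
        insert (⟨s(u, v), h⟩ : latt.edgeSet) (pe p) := by
      ext e
      simp only [mem_pe, SimpleGraph.Walk.darts_cons, List.mem_cons, Finset.mem_insert]
      constructor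
      · rintro ⟨d, rfl | hd, rfl⟩
        · left; rfl
        · right; exact ⟨d, hd, rfl⟩
      · rintro (rfl | ⟨d, hd, rfl⟩)
        · exact ⟨_, Or.inl rfl, rfl⟩
        · exact ⟨d, Or.inr hd, rfl⟩
    rw [hpe, ww_cons, wt_eq t h]
    by_cases hm : (⟨s(u, v), h⟩ : latt.edgeSet) ∈ pe p
    · rw [Finset.insert_eq_of_mem hm]
      linarith [ht ⟨s(u, v), h⟩]
    · rw [Finset.sum_insert hm]
      linarith

/-- Heavy edges bound the weight from below. -/
theorem heavy_le_ww {β : ℝ} {t : Env} (ht : ∀ e, 0 < t e) {x y : V} (p : latt.Walk x y)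
    {s : Finset latt.edgeSet} (hs : s ⊆ pe p) (hβ : ∀ e ∈ s, β ≤ t e) :
    β * s.card ≤ ww (wt t) p := by
  refine le_trans ?_ (sum_pe_le_ww ht p hs)
  calc β * s.card = ∑ _e ∈ s, β := by rw [Finset.sum_const, nsmul_eq_mul, mul_comm]
    _ ≤ _ := Finset.sum_le_sum hβ

end Vale.Agent.P158.T1.Pe
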