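import Vale.Agent.P158.T1.Peierls

/-! Peierls estimates: probabilities. -/

namespace Vale.Agent.P158.T1.Pe

open Filter MeasureTheory ProbabilityTheory
open scoped ENNReal

variable {G : Measure ℝ} [IsProbabilityMeasure G] {β : ℝ}

open Classical in
/-- Number of heavy edges. -/
noncomputable def nh (β : ℝ) (t : Env) (s : Finset latt.edgeSet) : ℕ :=
  (s.filter fun e => β ≤ t e).card

open Classical in
/-- Exponential weight. -/
noncomputable def phiW (β : ℝ) (u : ℝ) : ℝ≥0∞ := if β ≤ u then 1 else 16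

theorem measurable_phiW : Measurable (phiW β) :=
  Measurable.ite measurableSet_Ici measurable_const measurable_const

theorem lintegral_phiW (hβ : G (Set.Iio β) ≤ 1 / 16) : ∫⁻ u, phiW β u ∂G ≤ 2 := by
  classical
  have h1 : ∀ u, phiW β u ≤ 1 + (Set.Iio β).indicator (fun _ => (16 : ℝ≥0∞)) u := by
    intro u
    unfold phiW
    split_ifs with h
    · exact le_self_add
    · rw [Set.indicator_of_mem (show u ∈ Set.Iio β from not_le.1 h)]
      exact le_add_self
  calc ∫⁻ u, phiW β u ∂G ≤ ∫⁻ u, (1 + (Set.Iio β).indicator (fun _ => (16 : ℝ≥0∞)) u) ∂G :=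
        lintegral_mono h1
    _ = 1 + 16 * G (Set.Iio β) := by
        rw [lintegral_add_left measurable_const, lintegral_const, measure_univ, one_mul,
          lintegral_indicator measurableSet_Iio, lintegral_const,
          Measure.restrict_apply MeasurableSet.univ, Set.univ_inter]
    _ ≤ 1 + 16 * (1 / 16) := by gcongr
    _ = 2 := by
        rw [ENNReal.mul_div_cancel (by norm_num) (by norm_num)]
        norm_num

/-- Product integrals over distinct edges. -/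
theorem lintegral_prod_PG (s : Finset latt.edgeSet) {φ : ℝ → ℝ≥0∞} (hφ : Measurable φ) :
    ∫⁻ t, ∏ e ∈ s, φ (t e) ∂PG G = (∫⁻ u, φ u ∂G) ^ s.card := by
  have hi : iIndepFun (fun (e : latt.edgeSet) (t : Env) => φ (t e)) (PG G) :=
    iIndepFun_infinitePi (X := fun _ : latt.edgeSet => φ) fun _ => hφ
  rw [lintegral_prod_eq_prod_lintegral_of_indepFun s _ hi fun e =>
    hφ.comp (measurable_pi_apply e)]
  rw [← Finset.prod_const]
  refine Finset.prod_congr rfl fun e _ => ?_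
  have hmp : MeasurePreserving (fun t : Env => t e) (PG G) G :=
    measurePreserving_eval_infinitePi (fun _ : latt.edgeSet => G) e
  exact hmp.lintegral_comp hφ

theorem light_bound (hβ : G (Set.Iio β) ≤ 1 / 16) (s : Finset latt.edgeSet) :
    (2 : ℝ≥0∞) ^ (3 * s.card + s.card / 2) * PG G {t | 8 * nh β t s < s.card} ≤
      2 ^ s.card := by
  classical
  have hm : Measurable fun t : Env => ∏ e ∈ s, phiW β (t e) :=
    Finset.measurable_prod _ fun e _ => measurable_phiW.comp (measurable_pi_apply e)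
  have hsub : {t : Env | 8 * nh β t s < s.card} ⊆
      {t | (2 : ℝ≥0∞) ^ (3 * s.card + s.card / 2) ≤ ∏ e ∈ s, phiW β (t e)} := by
    intro t ht
    have ht' : 8 * nh β t s < s.card := ht
    show (2 : ℝ≥0∞) ^ (3 * s.card + s.card / 2) ≤ ∏ e ∈ s, phiW β (t e)
    unfold phiW
    rw [Finset.prod_ite, Finset.prod_const_one, one_mul, Finset.prod_const]
    have h1 : (s.filter fun e => ¬ β ≤ t e).card + nh β t s = s.card := by
      unfold nh
      rw [add_comm]
      exact Finset.card_filter_add_card_filter_not _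
    have h2 : (16 : ℝ≥0∞) = 2 ^ 4 := by norm_num
    rw [h2, ← pow_mul]
    refine pow_le_pow_right₀ (by norm_num) ?_
    omega
  calc _ ≤ (2 : ℝ≥0∞) ^ (3 * s.card + s.card / 2) *
        PG G {t | (2 : ℝ≥0∞) ^ (3 * s.card + s.card / 2) ≤ ∏ e ∈ s, phiW β (t e)} := by
        gcongr
    _ ≤ ∫⁻ t, ∏ e ∈ s, phiW β (t e) ∂PG G := mul_meas_ge_le_lintegral hm _
    _ = (∫⁻ u, phiW β u ∂G) ^ s.card := lintegral_prod_PG s measurable_phiW
    _ ≤ 2 ^ s.card := by gcongr; exact lintegral_phiW hβ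

/-- Peierls estimate for paths of length `ℓ` from `x`. -/
theorem peierls_pow (hβ : G (Set.Iio β) ≤ 1 / 16) (x : V) (ℓ : ℕ) :
    (2 : ℝ≥0∞) ^ (ℓ / 2) * PG G {t | ∃ (y : V) (p : latt.Walk x y), p.IsPath ∧ p.length = ℓ ∧
      8 * nh β t (pe p) < ℓ} ≤ 1 := by
  classical
  have hsub : {t : Env | ∃ (y : V) (p : latt.Walk x y), p.IsPath ∧ p.length = ℓ ∧
      8 * nh β t (pe p) < ℓ} ⊆ ⋃ q ∈ (WL ℓ x).filter fun q => (pe q.2).card = ℓ,
        {t | 8 * nh β t (pe q.2) < (pe q.2).card} := by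
    rintro t ⟨y, p, hp, hl, ht⟩
    rw [Set.mem_iUnion₂]
    refine ⟨⟨y, p⟩, ?_, ?_⟩
    · rw [Finset.mem_filter]
      refine ⟨?_, by rw [card_pe hp, hl]⟩
      have := mem_WL p
      rwa [hl] at this
    · show 8 * nh β t (pe p) < (pe p).card
      rw [card_pe hp, hl]
      exact ht
  have h1 : PG G {t | ∃ (y : V) (p : latt.Walk x y), p.IsPath ∧ p.length = ℓ ∧
      8 * nh β t (pe p) < ℓ} ≤ ∑ q ∈ (WL ℓ x).filter fun q => (pe q.2).card = ℓ,
        PG G {t | 8 * nh β t (pe q.2) < (pe q.2).card} :=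
    (measure_mono hsub).trans (measure_biUnion_finset_le _ _)
  have h2 : (2 : ℝ≥0∞) ^ (3 * ℓ + ℓ / 2) * ∑ q ∈ (WL ℓ x).filter fun q => (pe q.2).card = ℓ,
      PG G {t | 8 * nh β t (pe q.2) < (pe q.2).card} ≤ 2 ^ (3 * ℓ) := by
    rw [Finset.mul_sum]
    calc ∑ q ∈ (WL ℓ x).filter fun q => (pe q.2).card = ℓ, (2 : ℝ≥0∞) ^ (3 * ℓ + ℓ / 2) *
          PG G {t | 8 * nh β t (pe q.2) < (pe q.2).card}
        ≤ ∑ _q ∈ (WL ℓ x).filter fun q => (pe q.2).card = ℓ, (2 : ℝ≥0∞) ^ ℓ := by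
          refine Finset.sum_le_sum fun q hq => ?_
          have := light_bound hβ (pe q.2)
          rw [(Finset.mem_filter.1 hq).2] at this
          rw [(Finset.mem_filter.1 hq).2]
          exact this
      _ = (((WL ℓ x).filter fun q => (pe q.2).card = ℓ).card : ℝ≥0∞) * 2 ^ ℓ := by
          rw [Finset.sum_const, nsmul_eq_mul]
      _ ≤ ((4 ^ ℓ : ℕ) : ℝ≥0∞) * 2 ^ ℓ := by
          gcongr
          exact (Finset.card_filter_le _ _).trans (card_WL ℓ x)
      _ = 2 ^ (3 * ℓ) := by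
          push_cast
          rw [show (4 : ℝ≥0∞) = 2 ^ 2 by norm_num, ← pow_mul, ← pow_add]
          congr 1
          ring
  have h3 : (2 : ℝ≥0∞) ^ (3 * ℓ) * ((2 : ℝ≥0∞) ^ (ℓ / 2) *
      PG G {t | ∃ (y : V) (p : latt.Walk x y), p.IsPath ∧ p.length = ℓ ∧
        8 * nh β t (pe p) < ℓ}) ≤ 2 ^ (3 * ℓ) * 1 := by
    rw [← mul_assoc, ← pow_add, mul_one]
    exact (mul_le_mul_right h1 _).trans h2
  exact (ENNReal.mul_le_mul_iff_right (by positivity) (by finiteness)).1 h3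

theorem half_pow_le (ℓ : ℕ) : (1 / 2 : ℝ) ^ (ℓ / 2) ≤ 2 * (3 / 4) ^ ℓ := by
  induction ℓ using Nat.strong_induction_on with
  | _ ℓ ih =>
    rcases ℓ with _ | _ | ℓ
    · norm_num
    · norm_num
    · have h := ih ℓ (by omega)
      have e : (ℓ + 1 + 1) / 2 = ℓ / 2 + 1 := by omega
      rw [e, pow_succ]
      have h2 : (0 : ℝ) ≤ (3 / 4) ^ ℓ := by positivity
      have h3 : (3 / 4 : ℝ) ^ (ℓ + 1 + 1) = (3 / 4) ^ ℓ * (9 / 16) := by ring
      rw [h3]
      nlinarith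

/-- Peierls estimate, final form. -/
theorem peierls_path (hβ : G (Set.Iio β) ≤ 1 / 16) (x : V) (ℓ : ℕ) :
    PG G {t | ∃ (y : V) (p : latt.Walk x y), p.IsPath ∧ p.length = ℓ ∧
      8 * nh β t (pe p) < ℓ} ≤ ENNReal.ofReal (2 * (3 / 4) ^ ℓ) := by
  have h := peierls_pow hβ x ℓ
  set P := PG G {t | ∃ (y : V) (p : latt.Walk x y), p.IsPath ∧ p.length = ℓ ∧
      8 * nh β t (pe p) < ℓ} with hP
  have h1 : P ≤ ENNReal.ofReal ((1 / 2 : ℝ) ^ (ℓ / 2)) := by
    have e : ENNReal.ofReal ((1 / 2 : ℝ) ^ (ℓ / 2)) = 1 / (2 : ℝ≥0∞) ^ (ℓ / 2) := by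
      rw [ENNReal.ofReal_pow (by norm_num), ENNReal.ofReal_div_of_pos (by norm_num),
        ENNReal.ofReal_one, ENNReal.ofReal_ofNat, one_div, one_div, ENNReal.inv_pow]
    rw [e, ENNReal.le_div_iff_mul_le (Or.inl (by positivity)) (Or.inl (by finiteness)), mul_comm]
    exact h
  exact h1.trans (ENNReal.ofReal_le_ofReal (half_pow_le ℓ))

end Vale.Agent.P158.T1.Pe
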