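import Vale.Agent.P158.T1.Base2
import Vale.Agent.P158.Prob

/-! Plan B: definitions and module statements (finite-volume part).

Every module is a `Prop`-valued definition `XStmt`; the module file proves `theorem x : XStmt`.
No statement here is assumed anywhere: the final theorem is obtained by composing the proofs. -/

namespace Vale.Agent.P158.T1

open Filter MeasureTheory
open scoped ENNReal

/-! ### Geometry -/

/-- Sup-norm ball. -/
def bx (z : V) (r : ℕ) : Set V := {x | |x.1 - z.1| ≤ r ∧ |x.2 - z.2| ≤ r}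

theorem mem_bx {x z : V} {r : ℕ} : x ∈ bx z r ↔ |x.1 - z.1| ≤ r ∧ |x.2 - z.2| ≤ r := Iff.rfl

theorem bx_finite (z : V) (r : ℕ) : (bx z r).Finite := by
  refine (Set.finite_Icc (z.1 - r, z.2 - r) (z.1 + r, z.2 + r)).subset ?_
  rintro x ⟨h1, h2⟩
  rw [abs_le] at h1 h2
  exact ⟨⟨by linarith [h1.1], by linarith [h2.1]⟩, ⟨by linarith [h1.2], by linarith [h2.2]⟩⟩

theorem bx_mono {z : V} {r s : ℕ} (h : r ≤ s) : bx z r ⊆ bx z s := by
  rintro x ⟨h1, h2⟩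
  have : (r : ℤ) ≤ s := by exact_mod_cast h
  exact ⟨h1.trans this, h2.trans this⟩

theorem bx_adj {x y z : V} {r : ℕ} (h : latt.Adj x y) (hx : x ∈ bx z r) : y ∈ bx z (r + 1) := by
  have h' : |x.1 - y.1| + |x.2 - y.2| = 1 := h
  obtain ⟨h1, h2⟩ := hx
  rw [mem_bx]
  push_cast
  have e1 := abs_sub_abs_le_abs_sub (x.1 - y.1) 0
  have e2 := abs_nonneg (x.1 - y.1)
  have e3 := abs_nonneg (x.2 - y.2)
  rw [abs_le] at *
  have f1 : |x.1 - y.1| ≤ 1 := by linarith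
  have f2 : |x.2 - y.2| ≤ 1 := by linarith
  rw [abs_le] at f1 f2 ⊢
  constructor <;> constructor <;> linarith [f1.1, f1.2, f2.1, f2.2, h1.1, h1.2, h2.1, h2.2]

/-- Edges with at least one endpoint in `bx z r`. -/
def tE (z : V) (r : ℕ) : Set latt.edgeSet := {e | ∃ x ∈ e.1, x ∈ bx z r}

/-- Edges with both endpoints in `bx z r`. -/
def iE (z : V) (r : ℕ) : Set latt.edgeSet := {e | ∀ x ∈ e.1, x ∈ bx z r}

/-- Edges inside the ring `bx z (r + 1) \ bx z r`. -/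
def rE (z : V) (r : ℕ) : Set latt.edgeSet := {e | ∀ x ∈ e.1, x ∈ bx z (r + 1) \ bx z r}

theorem edges_finite {X : Set V} (hX : X.Finite) :
    {e : latt.edgeSet | ∀ x ∈ e.1, x ∈ X}.Finite := by
  refine Set.Finite.of_finite_image (f := fun e : latt.edgeSet => e.1) ?_
    (Subtype.val_injective.injOn)
  refine ((hX.prod hX).image (fun q : V × V => s(q.1, q.2))).subset ?_
  rintro _ ⟨e, he, rfl⟩
  obtain ⟨⟨x, y⟩, hxy⟩ := Sym2.mk_surjective e.1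
  refine ⟨(x, y), ⟨he x ?_, he y ?_⟩, hxy⟩ <;> rw [← hxy] <;> simp

theorem iE_finite (z : V) (r : ℕ) : (iE z r).Finite := edges_finite (bx_finite z r)

theorem tE_subset_iE (z : V) (r : ℕ) : tE z r ⊆ iE z (r + 1) := by
  rintro ⟨e, he⟩ ⟨x, hx, hx'⟩ y hy
  induction e using Sym2.ind with
  | _ u v =>
    have huv : latt.Adj u v := he
    simp only [Sym2.mem_iff] at hx hy
    rcases hx with rfl | rfl <;> rcases hy with rfl | rfl
    · exact bx_mono (Nat.le_succ r) hx'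
    · exact bx_adj huv hx'
    · exact bx_adj huv.symm hx'
    · exact bx_mono (Nat.le_succ r) hx'

theorem tE_finite (z : V) (r : ℕ) : (tE z r).Finite :=
  (iE_finite z (r + 1)).subset (tE_subset_iE z r)

theorem rE_finite (z : V) (r : ℕ) : (rE z r).Finite :=
  edges_finite ((bx_finite z (r + 1)).subset Set.sdiff_subset)

/-- `tE` as a finset. -/
noncomputable def tF (z : V) (r : ℕ) : Finset latt.edgeSet := (tE_finite z r).toFinset

/-- `rE` as a finset. -/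
noncomputable def rF (z : V) (r : ℕ) : Finset latt.edgeSet := (rE_finite z r).toFinset

theorem mem_tF {z : V} {r : ℕ} {e : latt.edgeSet} : e ∈ tF z r ↔ e ∈ tE z r :=
  (tE_finite z r).mem_toFinset

theorem mem_rF {z : V} {r : ℕ} {e : latt.edgeSet} : e ∈ rF z r ↔ e ∈ rE z r :=
  (rE_finite z r).mem_toFinset

/-- The edge of a dart. -/
def dE (d : latt.Dart) : latt.edgeSet := ⟨d.edge, d.edge_mem⟩

/-- The set of edges of a walk. -/
def pe {x y : V} (p : latt.Walk x y) : Finset latt.edgeSet := (p.darts.map dE).toFinset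

theorem mem_pe {x y : V} {p : latt.Walk x y} {e : latt.edgeSet} :
    e ∈ pe p ↔ ∃ d ∈ p.darts, dE d = e := by
  simp [pe]

open Classical in
/-- Frozen environment: `t` on the edges touching `bx 0 n`, `t₀` elsewhere. -/
noncomputable def fz (n : ℕ) (t₀ t : Env) : Env := fun e => if e ∈ tE 0 n then t e else t₀ e

/-- Centres of the blocks. -/
def cen (r : ℕ) (q : ℤ × ℤ) : V := ((2 * r + 1) * q.1, (2 * r + 1) * q.2)

/-- Indices of the blocks used in the box of radius `n`. -/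
noncomputable def Zc (n r : ℕ) : Finset (ℤ × ℤ) :=
  Finset.Icc (-((n / (2 * (2 * r + 1)) : ℕ) : ℤ), -((n / (2 * (2 * r + 1)) : ℕ) : ℤ))
    (((n / (2 * (2 * r + 1)) : ℕ) : ℤ), ((n / (2 * (2 * r + 1)) : ℕ) : ℤ))

/-! ### Laws -/

/-- Assumptions on the law (besides atomlessness). -/
structure Law (G : Measure ℝ) : Prop where
  nonneg : G (Set.Iio 0) = 0
  mean : ∫⁻ s, ENNReal.ofReal s ∂G ≠ ∞
  supp : ∀ a b : ℝ, 0 ≤ a → a < b → 0 < G (Set.Ioo a b)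

/-- Low and high levels. -/
structure Lev (G : Measure ℝ) (α β : ℝ) : Prop where
  pos : 0 < α
  lt : α < β
  small : G (Set.Iio β) ≤ 1 / 16

open Classical in
/-- Density of the raised one-edge law: the mass `ε G (Iic α)` is moved to `[β, ∞)`. -/
noncomputable def rho (G : Measure ℝ) (α β ε : ℝ) (s : ℝ) : ℝ≥0∞ :=
  if s ≤ α then ENNReal.ofReal (1 - ε)
  else if s < β then 1 else 1 + ENNReal.ofReal ε * G (Set.Iic α) / G (Set.Ici β)

/-- Law of the environment raised in the block `tE z s`. -/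
noncomputable def PR (G : Measure ℝ) [IsProbabilityMeasure G] (α β ε : ℝ) (z : V) (s : ℕ) :
    Measure Env :=
  (PG G).withDensity (fun t => ∏ e ∈ tF z s, rho G α β ε (t e))

/-! ### Chains and events -/

/-- A chain of cost functions with small one-sided steps. -/
structure Chain (ι : Type) where
  /-- length -/
  m : ℕ
  /-- left costs -/
  F : ℕ → ι → ℝ
  /-- right costs -/
  H : ℕ → ι → ℝ
  step : ∀ k < m, ((∀ i, |F (k + 1) i - F k i| ≤ 1 / 64) ∧ H (k + 1) = H k) ∨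
    (F (k + 1) = F k ∧ ∀ i, |H (k + 1) i - H k i| ≤ 1 / 64)

/-- The deterministic setting: finite domain, terminals outside `bx 0 n`, frozen weights with
crossing cost at most `C₀ n`. -/
structure Setup {ι : Type} (n : ℕ) (S : Set V) (a b : ι → V) (t₀ : Env) (C₀ : ℝ) : Prop where
  fin : S.Finite
  box : bx 0 (n + 1) ⊆ S
  conn : ∀ x ∈ S, ∀ y ∈ S, Conn S x y
  conn' : ∀ z R, bx z R ⊆ bx 0 n → ∀ x ∈ S \ bx z R, ∀ y ∈ S \ bx z R, Conn (S \ bx z R) x y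
  ha : ∀ i, a i ∈ S \ bx 0 n
  hb : ∀ j, b j ∈ S \ bx 0 n
  pos : ∀ e, 0 < t₀ e
  cross : ∀ i j, PT (wt t₀) (S \ bx 0 n) (a i) (b j) ≤ C₀ * n

variable {ι : Type}

/-- Energy at index `k`. -/
noncomputable def enk (t : Env) (S : Set V) (a b : ι → V) (c : Chain ι) (k : ℕ) : ℝ :=
  en (wt t) S a (c.F k) b (c.H k)

/-- Cost of a line at index `k`. -/
noncomputable def cost (t : Env) {S : Set V} {a b : ι → V} (c : Chain ι) (k : ℕ)
    (L : Line S a b) : ℝ :=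
  L.cost (wt t) (c.F k) (c.H k)

/-- The edge `e` is robustly visited at index `k`. -/
def RV (t : Env) (S : Set V) (a b : ι → V) (c : Chain ι) (k : ℕ) (e : latt.edgeSet) : Prop :=
  (∃ L : Line S a b, e ∈ pe L.p ∧ cost t c k L ≤ enk t S a b c k + 1 / 16) ∧
  ∀ L : Line S a b, e ∉ pe L.p → enk t S a b c k + 15 / 16 ≤ cost t c k L

/-- Robustly visited heavy edges of the block. -/
def VV (β : ℝ) (t : Env) (S : Set V) (a b : ι → V) (c : Chain ι) (z : V) (r : ℕ) :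
    Set latt.edgeSet :=
  {e | e ∈ tE z r ∧ β ≤ t e ∧ ∃ k ≤ c.m, RV t S a b c k e}

/-- Rigidity fails for the pair `(i, j)` of indices at the block `z`. -/
def BadP (t : Env) (S : Set V) (a b : ι → V) (c : Chain ι) (z : V) (r i j : ℕ) : Prop :=
  ∃ e ∈ tE z r, RV t S a b c i e ∧ ∃ L : Line S a b, e ∉ pe L.p ∧
    (∃ x ∈ L.p.support, x ∈ bx z (r + 1)) ∧ cost t c j L ≤ enk t S a b c j + 1 / 16

/-- Rigidity fails at the block `z` within `Kn` steps. -/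
def Bad (t : Env) (S : Set V) (a b : ι → V) (c : Chain ι) (Kn : ℕ) (z : V) (r : ℕ) : Prop :=
  ∃ i j, i ≤ c.m ∧ j ≤ c.m ∧ i ≤ j + Kn ∧ j ≤ i + Kn ∧ BadP t S a b c z r i j

/-- The block is visited at index `k`: every optimal line meets `bx z (2 r)`. -/
def JV (t : Env) (S : Set V) (a b : ι → V) (c : Chain ι) (z : V) (r k : ℕ) : Prop :=
  enk t S a b c k < enk t (S \ bx z (2 * r)) a b c k

/-- The inner block is visited up to `K` at index `k`. -/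
def JK (K : ℝ) (t : Env) (S : Set V) (a b : ι → V) (c : Chain ι) (z : V) (r k : ℕ) : Prop :=
  ∃ x ∈ bx z (r + 1), lf (wt t) S a (c.F k) x + lf (wt t) S b (c.H k) x ≤
    enk t (S \ bx z (2 * r)) a b c k + K

open Classical in
/-- Heavy edges of a walk in the annulus between `bx z r` and `bx z s`. -/
noncomputable def hv (β : ℝ) (t : Env) (z : V) (r s : ℕ) {x y : V} (p : latt.Walk x y) :
    Finset latt.edgeSet :=
  (pe p).filter fun e => e ∉ tE z r ∧ e ∈ tE z s ∧ β ≤ t e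

/-- Good annulus: every crossing has many heavy edges in the annulus. -/
def AG (β : ℝ) (t : Env) (z : V) (r s : ℕ) : Prop :=
  ∀ (x y : V) (p : latt.Walk x y), x ∈ bx z r → y ∉ bx z s → s ≤ r + 8 * (hv β t z r s p).card

/-- Good window. -/
structure GW (Λ D M : ℝ) (t : Env) (z : V) (r R : ℕ) : Prop where
  far : ∀ (x y : V) (p : latt.Walk x y), x ∈ bx z (r + 1) → y ∉ bx z R → Λ ≤ ww (wt t) p
  near : ∑ e ∈ tF z (r + 1), t e ≤ D
  tot : ∑ e ∈ tF z R, t e ≤ M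

/-- The line `L` passes through the window: it enters by `u → u'`, stays inside until `v`. -/
def Pass {S : Set V} {a b : ι → V} (L : Line S a b) (u u' v z : V) (R : ℕ) : Prop :=
  ∃ (h : latt.Adj u u') (p₁ : latt.Walk (a L.i) u) (q : latt.Walk u' v)
    (p₂ : latt.Walk v (b L.j)), L.p = p₁.append (SimpleGraph.Walk.cons h (q.append p₂)) ∧
    ∀ x ∈ q.support, x = v ∨ x ∈ bx z R

/-- Branch event in the window for a left step `F → F'`. -/
def BR (w : V → V → ℝ) (S : Set V) (a : ι → V) (F F' : ι → ℝ) (b : ι → V) (H : ι → ℝ)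
    (z : V) (R : ℕ) : Prop :=
  ∃ u u' v : V, u ∈ bx z (R + 1) ∧ u ∉ bx z R ∧ u' ∈ bx z R ∧ v ∈ bx z (R + 1) ∧ v ∉ bx z R ∧
    (∀ L : Line S a b, L.cost w F H = en w S a F b H → Pass L u u' v z R) ∧
    (∀ L : Line S a b, L.cost w F' H = en w S a F' b H → v ∈ L.p.support) ∧
    ∃ L : Line S a b, L.cost w F' H = en w S a F' b H ∧ s(u, u') ∉ L.p.edges

/-- Branch event in the window at step `k` of the chain (four kinds). -/
def BRk (t : Env) (S : Set V) (a b : ι → V) (c : Chain ι) (z : V) (R k : ℕ) : Prop :=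
  (c.H (k + 1) = c.H k ∧
    (BR (wt t) S a (c.F k) (c.F (k + 1)) b (c.H k) z R ∨
      BR (wt t) S a (c.F (k + 1)) (c.F k) b (c.H k) z R)) ∨
  (c.F (k + 1) = c.F k ∧
    (BR (wt t) S b (c.H k) (c.H (k + 1)) a (c.F k) z R ∨
      BR (wt t) S b (c.H (k + 1)) (c.H k) a (c.F k) z R))

/-! ### Gadget -/

/-- Gadget parameters: three gates and two tuned values (in units `1/64`). -/
structure GP where
  /-- first gate -/
  g1 : latt.edgeSet
  /-- second gate -/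
  g2 : latt.edgeSet
  /-- exit gate -/
  g3 : latt.edgeSet
  /-- tuned value at the first gate -/
  s1 : ℕ
  /-- tuned value at the second gate -/
  s2 : ℕ

/-- Validity of gadget parameters for the window. -/
structure GP.Ok (σ : GP) (z : V) (R Ns : ℕ) : Prop where
  m1 : σ.g1 ∈ tE z R ∧ σ.g1 ∉ iE z R
  m2 : σ.g2 ∈ tE z R ∧ σ.g2 ∉ iE z R
  m3 : σ.g3 ∈ tE z R ∧ σ.g3 ∉ iE z R
  h12 : σ.g1 ≠ σ.g2
  h13 : σ.g1 ≠ σ.g3
  h23 : σ.g2 ≠ σ.g3
  s1 : σ.s1 ≤ Ns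
  s2 : σ.s2 ≤ Ns

/-- The gadget box: cheap interior, three open gates, all other gates closed. -/
def Yg (θ M₀ : ℝ) (σ : GP) (z : V) (R : ℕ) : Set Env :=
  {t | (∀ e ∈ iE z R, 0 < t e ∧ t e < θ) ∧
    ((σ.s1 : ℝ) / 64 < t σ.g1 ∧ t σ.g1 < ((σ.s1 : ℝ) + 1) / 64) ∧
    ((σ.s2 : ℝ) / 64 < t σ.g2 ∧ t σ.g2 < ((σ.s2 : ℝ) + 1) / 64) ∧
    (0 < t σ.g3 ∧ t σ.g3 < 1 / 64) ∧
    ∀ e ∈ tE z R, e ∉ iE z R → e ≠ σ.g1 → e ≠ σ.g2 → e ≠ σ.g3 → M₀ < t e ∧ t e < M₀ + 1}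

/-! ### Module statements, probabilistic -/

section Prob
variable (G : Measure ℝ) [IsProbabilityMeasure G]

/-- (a) The raised measures are probabilities with a uniform L² comparison (arbitrary sets). -/
def L2Stmt : Prop :=
  ∀ α β : ℝ, Lev G α β → ∀ c : ℝ, 0 < c → ∃ A : ℝ≥0∞, A ≠ ∞ ∧ ∀ (z : V) (r : ℕ), 1 ≤ r →
    c ≤ r → IsProbabilityMeasure (PR G α β (c / r) z (2 * r)) ∧
    ∀ C : Set Env, PR G α β (c / r) z (2 * r) C ≤ A * (PG G C) ^ (1 / 2 : ℝ)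

/-- (b) Thinning: sets are arbitrary (outer measures). -/
def ThinStmt : Prop :=
  ∀ α β : ℝ, Lev G α β → ∀ κ₀ : ℕ, ∃ c : ℝ, 0 < c ∧ ∀ (z : V) (r : ℕ), 1 ≤ r → c ≤ r →
    ∀ A A' : Set Env,
      (∀ t' ∈ A', ∃ Q : Finset latt.edgeSet, (∀ e ∈ Q, e ∈ tE z (2 * r) ∧ β ≤ t' e) ∧
        r ≤ 8 * Q.card + 1 ∧
        ∀ t : Env, (∀ e, t e ≤ t' e) → (∀ e, e ∉ tE z (2 * r) → t e = t' e) → (∀ e, 0 < t e) →
          κ₀ ≤ (Q.filter fun e => t e ≤ α).card → t ∈ A) →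
      PR G α β (c / r) z (2 * r) A' ≤ 2 * PG G A

/-- Peierls bound for annuli. -/
def PeierlsStmt : Prop :=
  ∀ β : ℝ, G (Set.Iio β) ≤ 1 / 16 → ∃ C θ : ℝ, 0 < C ∧ 0 < θ ∧ θ < 1 ∧
    ∀ (z : V) (r s : ℕ), r ≤ s →
      PG G {t | ¬ AG β t z r s} ≤ ENNReal.ofReal (C * (r + 1) * θ ^ (s - r))

/-- Windows are good with high probability: order of choice `r, D, Λ, R, M`. -/
def GWStmt : Prop :=
  ∀ (r : ℕ) (η : ℝ), 0 < η → ∃ D : ℝ, 0 < D ∧ ∀ Λ : ℝ, ∃ R₀ : ℕ, ∀ R ≥ R₀, ∃ M : ℝ, 0 < M ∧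
    ∀ z : V, PG G {t | ¬ GW Λ D M t z r R} ≤ ENNReal.ofReal η

/-- Ring sums under the raised laws. -/
def RingStmt : Prop :=
  ∀ α β : ℝ, Lev G α β → ∃ C₁ : ℝ, 0 < C₁ ∧ ∀ c : ℝ, 0 < c → ∃ r₀ : ℕ, ∀ r ≥ r₀, ∀ z : V,
    PR G α β (c / r) z (2 * r) {t | C₁ * r < ∑ e ∈ rF z r, t e} ≤ 1 / 8

/-- Resampling a window to a gadget (arbitrary sets). -/
def ResampleStmt : Prop :=
  ∀ (R Ns : ℕ) (θ M₀ : ℝ), 0 < θ → 0 < M₀ → ∃ p : ℝ≥0∞, p ≠ 0 ∧ ∀ (z : V) (σ : GP),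
    σ.Ok z R Ns → ∀ A B : Set Env,
      (∀ t ∈ A, ∀ t' ∈ Yg θ M₀ σ z R, (∀ e, e ∉ tE z R → t' e = t e) → t' ∈ B) →
      p * PG G A ≤ PG G B

/-- Rigidity fails rarely. -/
def RigidStmt : Prop :=
  ∀ (r R Kn : ℕ) (D M : ℝ), 0 < D → 0 < M → r + 1 ≤ R → ∃ C : ℝ, 0 < C ∧
    ∀ (n : ℕ) (ι : Type) [Finite ι] [Nonempty ι] (S : Set V) (a b : ι → V) (t₀ : Env)
      (C₀ : ℝ), 2 * (R + 2) ≤ n → Setup n S a b t₀ C₀ → ∀ c : Chain ι,
      ∑ q ∈ Zc n r, PG G {t | GW (4 * (D + Kn + 2)) D M (fz n t₀ t) (cen r q) r R ∧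
        Bad (fz n t₀ t) S a b c Kn (cen r q) r} ≤ ENNReal.ofReal (C * (c.m + 1))

/-- Theorem B. -/
def ThmBStmt : Prop :=
  ∀ α β : ℝ, Lev G α β → ∀ C₀ κ : ℝ, 0 < C₀ → 0 < κ → ∃ c : ℝ, 0 < c ∧ ∃ r₁ : ℕ, ∀ r ≥ r₁,
    ∃ n₀ : ℕ, ∀ n ≥ n₀, ∀ (ι : Type) [Finite ι] [Nonempty ι] (S : Set V) (a b : ι → V)
      (t₀ : Env), Setup n S a b t₀ C₀ → ∀ ch : Chain ι, (ch.m : ℝ) ≤ C₀ * n →
      ∑ q ∈ Zc n r, PR G α β (c / r) (cen r q) (2 * r)
        {t | κ * (r : ℝ) ^ 2 ≤ (VV β (fz n t₀ t) S a b ch (cen r q) r).ncard} ≤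
        ENNReal.ofReal ((1 / 2) * ((Zc n r).card : ℝ))

/-- Mean ergodic theorem for the density of translates of an event. -/
def ErgStmt : Prop :=
  ∀ A : Set Env, MeasurableSet A → ∀ η : ℝ, 0 < η → ∃ r₀ : ℕ, ∀ r ≥ r₀, ∀ z : V,
    PG G {t | ({x | x ∈ bx z r ∧ shE x t ∈ A}.ncard : ℝ) <
      (PG G A).toReal / 2 * (2 * r + 1) ^ 2 - η * (2 * r + 1) ^ 2} ≤ ENNReal.ofReal η

end Prob

/-! ### Module statements, deterministic -/

/-- (b'') Gain: in the raised environment a nearly visited block; after lowering `κ₀` heavy edges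
it is visited. -/
def GainStmt : Prop :=
  ∀ (α β K : ℝ) (κ₀ : ℕ), 0 < α → α < β → K < κ₀ * (β - α) →
    ∀ (ι : Type) [Finite ι] [Nonempty ι] (S : Set V) (a b : ι → V) (n : ℕ) (t₀ : Env) (C₀ : ℝ),
      Setup n S a b t₀ C₀ → ∀ (c : Chain ι) (z : V) (r k : ℕ), 1 ≤ r → bx z (2 * r) ⊆ bx 0 n →
      ∀ t' : Env, (∀ e, 0 < t' e) → AG β t' z (r + 1) (2 * r) → JK K t' S a b c z r k →
      ∃ Q : Finset latt.edgeSet, (∀ e ∈ Q, e ∈ tE z (2 * r) ∧ β ≤ t' e) ∧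
        r ≤ 8 * Q.card + 1 ∧
        ∀ t : Env, (∀ e, t e ≤ t' e) → (∀ e, e ∉ tE z (2 * r) → t e = t' e) → (∀ e, 0 < t e) →
          κ₀ ≤ (Q.filter fun e => t e ≤ α).card → JV t S a b c z r k

open Classical in
/-- (c) Counting of visited good blocks. -/
def CountStmt : Prop :=
  ∀ (β C₀ : ℝ) (n r : ℕ) (ι : Type) [Finite ι] [Nonempty ι] (S : Set V) (a b : ι → V)
    (t₀ t : Env), 0 < β → 1 ≤ r → 8 * r ≤ n → Setup n S a b t₀ C₀ → (∀ e, 0 < t e) →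
    ∀ (c : Chain ι) (k : ℕ),
      (((Zc n r).filter fun q => JV (fz n t₀ t) S a b c (cen r q) r k ∧
        AG β (fz n t₀ t) (cen r q) (2 * r) (3 * r)).card : ℝ) * r * β ≤ 400 * C₀ * n

open Classical in
/-- (d) Clusters. -/
def ClusterStmt : Prop :=
  ∀ (β C₀ : ℝ) (n r q₀ N : ℕ) (ι : Type) [Finite ι] [Nonempty ι] (S : Set V) (a b : ι → V)
    (t₀ t : Env), 0 < β → 1 ≤ r → 1 ≤ q₀ → Setup n S a b t₀ C₀ → (∀ e, 0 < t e) →
    ∀ (c : Chain ι) (z : V), bx z (2 * r + 1) ⊆ bx 0 n → ¬ Bad t S a b c (8 * q₀) z r →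
      (N : ℝ) * (∑ e ∈ rF z r, t e + 1) ≤ β * (VV β t S a b c z r).ncard →
      (N - 1) * q₀ ≤
        ((Finset.range (c.m + 1)).filter fun k => JK (8 * q₀ / 64 : ℝ) t S a b c z r k).card

/-- (e1) From a rigidity failure in a good window to a branch event in the gadget. -/
def GadgetStmt : Prop :=
  ∀ (r R Kn : ℕ) (D M : ℝ), 0 < D → 0 < M → r + 1 ≤ R → ∃ (θ M₀ : ℝ) (Ns : ℕ), 0 < θ ∧ 0 < M₀ ∧
    ∀ (ι : Type) [Finite ι] [Nonempty ι] (S : Set V) (a b : ι → V) (n : ℕ) (t₀ : Env) (C₀ : ℝ),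
      Setup n S a b t₀ C₀ → ∀ (c : Chain ι) (z : V), bx z (R + 1) ⊆ bx 0 n →
      ∀ t : Env, (∀ e, 0 < t e) → GW (4 * (D + Kn + 2)) D M t z r R →
      ∀ i j, i ≤ c.m → j ≤ c.m → i ≤ j + Kn → j ≤ i + Kn → BadP t S a b c z r i j →
      ∃ σ : GP, σ.Ok z R Ns ∧ ∀ t' ∈ Yg θ M₀ σ z R, (∀ e, e ∉ tE z R → t' e = t e) →
        ∃ k, min i j ≤ k ∧ k < max i j ∧ BRk t' S a b c z R k

/-- (e2) Cut and paste: two disjoint windows cannot both have a branch. -/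
def CutStmt : Prop :=
  ∀ (ι : Type) [Finite ι] [Nonempty ι] (w : V → V → ℝ) (S : Set V) (a b : ι → V)
    (F F' H : ι → ℝ) (z z' : V) (R : ℕ), Adm w → Frame S a b → Att w S →
    Disjoint (bx z (R + 1)) (bx z' (R + 1)) →
    ¬ (BR w S a F F' b H z R ∧ BR w S a F F' b H z' R)

/-- Measurability of the events which are summed. -/
def MeasStmt : Prop :=
  ∀ (ι : Type) [Finite ι] [Nonempty ι] (S : Set V) (a b : ι → V) (n : ℕ) (t₀ : Env)
    (c : Chain ι) (z : V) (r s R k : ℕ) (β : ℝ),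
    MeasurableSet {t | JV (fz n t₀ t) S a b c z r k} ∧
    MeasurableSet {t | AG β (fz n t₀ t) z r s} ∧
    MeasurableSet {t | BRk (fz n t₀ t) S a b c z R k}

end Vale.Agent.P158.T1
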