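import Vale.Agent.P158.Final

/-! Robust bigeodesics: the deterministic part. -/

namespace Vale.Agent.P158.T1

open SimpleGraph

variable {w w' : V → V → ℝ} {v : ℤ → V} {P P' : ℤ → ℝ}

/-- Position function of a biinfinite path. -/
def PosF (w : V → V → ℝ) (v : ℤ → V) (P : ℤ → ℝ) : Prop :=
  ∀ k, P (k + 1) = P k + w (v k) (v (k + 1))

theorem exists_posF (w : V → V → ℝ) (v : ℤ → V) : ∃ P, PosF w v P := by
  refine ⟨fun k => ∑ l ∈ Finset.Ico 0 k, w (v l) (v (l + 1)) -
    ∑ l ∈ Finset.Ico k 0, w (v l) (v (l + 1)), fun k => ?_⟩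
  rcases le_or_gt 0 k with hk | hk
  · have e1 : Finset.Ico k 0 = ∅ := Finset.Ico_eq_empty (by omega)
    have e2 : Finset.Ico (k + 1) 0 = ∅ := Finset.Ico_eq_empty (by omega)
    have e3 : Finset.Ico 0 (k + 1) = insert k (Finset.Ico 0 k) := by
      ext a; simp only [Finset.mem_Ico, Finset.mem_insert]; omega
    show ∑ l ∈ Finset.Ico 0 (k + 1), w (v l) (v (l + 1)) -
      ∑ l ∈ Finset.Ico (k + 1) 0, w (v l) (v (l + 1)) =
      ∑ l ∈ Finset.Ico 0 k, w (v l) (v (l + 1)) - ∑ l ∈ Finset.Ico k 0, w (v l) (v (l + 1)) + _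
    rw [e1, e2, e3, Finset.sum_insert (by simp)]
    simp only [Finset.sum_empty, sub_zero]
    ring
  · have e1 : Finset.Ico 0 k = ∅ := Finset.Ico_eq_empty (by omega)
    have e2 : Finset.Ico 0 (k + 1) = ∅ := Finset.Ico_eq_empty (by omega)
    have e3 : Finset.Ico k 0 = insert k (Finset.Ico (k + 1) 0) := by
      ext a; simp only [Finset.mem_Ico, Finset.mem_insert]; omega
    show ∑ l ∈ Finset.Ico 0 (k + 1), w (v l) (v (l + 1)) -
      ∑ l ∈ Finset.Ico (k + 1) 0, w (v l) (v (l + 1)) =
      ∑ l ∈ Finset.Ico 0 k, w (v l) (v (l + 1)) - ∑ l ∈ Finset.Ico k 0, w (v l) (v (l + 1)) + _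
    rw [e1, e2, e3, Finset.sum_insert (by simp)]
    simp only [Finset.sum_empty]
    ring

theorem PosF.add (hP : PosF w v P) (i : ℤ) (n : ℕ) :
    P (i + n) = P i + ∑ l ∈ Finset.range n, w (v (i + l)) (v (i + l + 1)) := by
  induction n with
  | zero => simp
  | succ n ih =>
    rw [Finset.sum_range_succ, ← add_assoc, ← ih]
    have e : i + ((n + 1 : ℕ) : ℤ) = i + n + 1 := by push_cast; ring
    rw [e]
    exact hP (i + n)

theorem isBi_T (hv : IsBi w v) (hP : PosF w v P) {i j : ℤ} (hij : i ≤ j) :
    T w (v i) (v j) = P j - P i := by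
  obtain ⟨n, rfl⟩ := Int.le.dest hij
  have h1 : ∑ l ∈ Finset.range n, w (v (i + (l : ℤ))) (v (i + ((l + 1 : ℕ) : ℤ))) =
      T w (v (i + ((0 : ℕ) : ℤ))) (v (i + n)) := (hv i).2 n
  rw [hP.add i n]
  have e0 : v (i + ((0 : ℕ) : ℤ)) = v i := by simp
  rw [e0] at h1
  rw [← h1, add_sub_cancel_left]
  refine Finset.sum_congr rfl fun l _ => ?_
  have e : i + ((l + 1 : ℕ) : ℤ) = i + l + 1 := by push_cast; ring
  rw [e]

theorem isBi_adj (hv : IsBi w v) (k : ℤ) : latt.Adj (v k) (v (k + 1)) := by
  have := (hv k).1 0
  simpa using this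

theorem isBi_inj (hw : Adm w) (hv : IsBi w v) : Function.Injective v := by
  have key : ∀ a b : ℤ, a ≤ b → v a = v b → a = b := by
    intro a b hab h
    obtain ⟨n, rfl⟩ := Int.le.dest hab
    have h1 := (hv a).injective hw (a₁ := 0) (a₂ := n) (by simpa using h)
    rw [← h1]; simp
  intro a b h
  rcases le_total a b with hab | hab
  · exact key a b hab h
  · exact (key b a hab h.symm).symm

theorem PosF.mono (hw : Adm w) (hv : ∀ k, latt.Adj (v k) (v (k + 1))) (hP : PosF w v P)
    {i j : ℤ} (hij : i ≤ j) : P i ≤ P j := by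
  obtain ⟨n, rfl⟩ := Int.le.dest hij
  rw [hP.add i n]
  have : 0 ≤ ∑ l ∈ Finset.range n, w (v (i + l)) (v (i + l + 1)) :=
    Finset.sum_nonneg fun l _ => (hw.pos _ _ (hv _)).le
  linarith

/-- First hit of a set. -/
theorem first_hit (Γ : V → Prop) {x y : V} (ρ : latt.Walk x y) (hy : Γ y) :
    ∃ (c : V) (ρ1 : latt.Walk x c) (ρ2 : latt.Walk c y), ρ = ρ1.append ρ2 ∧ Γ c ∧
      ∀ d ∈ ρ1.darts, ¬ Γ d.fst := by
  induction ρ with
  | nil => exact ⟨_, Walk.nil, Walk.nil, rfl, hy, by simp⟩
  | cons h ρ ih =>
    rename_i a b d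
    by_cases ha : Γ a
    · exact ⟨a, Walk.nil, Walk.cons h ρ, rfl, ha, by simp⟩
    · obtain ⟨c, ρ1, ρ2, e, hc, hd⟩ := ih hy
      refine ⟨c, Walk.cons h ρ1, ρ2, by rw [e]; rfl, hc, fun d hd' => ?_⟩
      rw [Walk.darts_cons, List.mem_cons] at hd'
      rcases hd' with rfl | hd'
      · exact ha
      · exact hd d hd'

/-- An edge off the path. -/
def Off (v : ℤ → V) (x y : V) : Prop := ∀ k, s(x, y) ≠ s(v k, v (k + 1))

theorem ww_le_of_off (h2 : ∀ x y, latt.Adj x y → Off v x y → w x y ≤ w' x y) {x y : V}
    (π : latt.Walk x y) (hπ : ∀ d ∈ π.darts, Off v d.fst d.snd) : ww w π ≤ ww w' π := by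
  induction π with
  | nil => exact le_refl _
  | cons h π ih =>
    rw [ww_cons, ww_cons]
    have := ih fun d hd => hπ d (by simp [hd])
    have := h2 _ _ h (hπ ⟨(_, _), h⟩ (by simp))
    linarith

theorem first_dart {x y : V} (π : latt.Walk x y) (hπ : 0 < π.length) :
    ∃ d ∈ π.darts, d.fst = x := by
  cases π with
  | nil => simp at hπ
  | cons h π => exact ⟨⟨(_, _), h⟩, by simp, rfl⟩

theorem ww_add_le_of_off {B : Set V} {a : ℝ}
    (h2 : ∀ x y, latt.Adj x y → Off v x y → w x y ≤ w' x y)
    (h3 : ∀ x y, latt.Adj x y → Off v x y → (x ∈ B ∨ y ∈ B) → w x y + a ≤ w' x y) {x y : V}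
    (π : latt.Walk x y) (hπ : ∀ d ∈ π.darts, Off v d.fst d.snd)
    (hB : ∃ d ∈ π.darts, d.fst ∈ B ∨ d.snd ∈ B) : ww w π + a ≤ ww w' π := by
  induction π with
  | nil => simp at hB
  | cons h π ih =>
    rename_i p q r
    rw [ww_cons, ww_cons]
    have hoff : Off v p q := hπ ⟨(p, q), h⟩ (by simp)
    have hoff' : ∀ d ∈ π.darts, Off v d.fst d.snd := fun d hd => hπ d (by simp [hd])
    by_cases hpq : p ∈ B ∨ q ∈ B
    · have := h3 p q h hoff hpq
      have := ww_le_of_off h2 π hoff'
      linarith
    · obtain ⟨d, hd, hdB⟩ := hB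
      rw [Walk.darts_cons, List.mem_cons] at hd
      rcases hd with rfl | hd
      · exact absurd hdB hpq
      · have := ih hoff' ⟨d, hd, hdB⟩
        have := h2 p q h hoff
        linarith

/-- Domination of walks by the path after the change of weights. -/
theorem robust_core (hw : Adm w) (hw' : Adm w') (hv : IsBi w v) {B : Set V} (h0 : v 0 ∈ B)
    (hP : PosF w v P) (hP' : PosF w' v P') {a : ℝ}
    (h1 : ∀ k, k ≠ 0 → w' (v k) (v (k + 1)) ≤ w (v k) (v (k + 1)))
    (h2 : ∀ x y, latt.Adj x y → Off v x y → w x y ≤ w' x y)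
    (h3 : ∀ x y, latt.Adj x y → Off v x y → (x ∈ B ∨ y ∈ B) → w x y + a ≤ w' x y)
    (h4 : ∀ k < 0, v k ∉ B → P' 0 - P' k + a ≤ P 0 - P k)
    (ha : w' (v 0) (v 1) - w (v 0) (v 1) + 1 ≤ a) :
    ∀ (n : ℕ) (i j : ℤ) (x y : V) (π : latt.Walk x y), x = v i → y = v j → π.length ≤ n →
      P' j - P' i ≤ ww w' π ∧
      (i ≤ 0 → 1 ≤ j → s(v 0, v 1) ∉ π.edges → P' j - P' i + 1 ≤ ww w' π) := by
  have hinj := isBi_inj hw hv
  have hadj := isBi_adj hv
  have hlow : ∀ i j : ℤ, i ≤ j → (j ≤ 0 ∨ 1 ≤ i) → P' j - P' i ≤ P j - P i := by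
    intro i j hij hside
    obtain ⟨n, rfl⟩ := Int.le.dest hij
    rw [hP.add i n, hP'.add i n]
    have : ∑ l ∈ Finset.range n, w' (v (i + l)) (v (i + l + 1)) ≤
        ∑ l ∈ Finset.range n, w (v (i + l)) (v (i + l + 1)) := by
      refine Finset.sum_le_sum fun l hl => h1 _ ?_
      rw [Finset.mem_range] at hl
      omega
    linarith
  -- pieces off the path
  have piece : ∀ (i l : ℤ) (x y : V) (π : latt.Walk x y), x = v i → y = v l →
      (∀ d ∈ π.darts, Off v d.fst d.snd) → 0 < π.length →
      P' l - P' i ≤ ww w' π ∧ (i ≤ 0 → 1 ≤ l → P' l - P' i + 1 ≤ ww w' π) := by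
    intro i l x y π hx hy hoff hlen
    subst hx; subst hy
    have hTw := T_le hw π
    have hww := ww_le_of_off h2 π hoff
    have hnn := ww_nonneg hw' π
    by_cases hli : l ≤ i
    · have := hP'.mono hw' hadj hli
      exact ⟨by linarith, fun _ _ => by omega⟩
    push Not at hli
    rw [isBi_T hv hP hli.le] at hTw
    by_cases hside : l ≤ 0 ∨ 1 ≤ i
    · have := hlow i l hli.le hside
      exact ⟨by linarith, fun _ _ => by omega⟩
    · push Not at hside
      have hi0 : i ≤ 0 := by omega
      have hl1 : 1 ≤ l := by omega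
      have b1 := hlow 1 l hl1 (Or.inr le_rfl)
      have b0 := hlow i 0 hi0 (Or.inl le_rfl)
      have c1 : P 1 = P 0 + w (v 0) (v 1) := by have := hP 0; simpa using this
      have c2 : P' 1 = P' 0 + w' (v 0) (v 1) := by have := hP' 0; simpa using this
      have goal : P' l - P' i + 1 ≤ ww w' π := by
        by_cases hB : ∃ d ∈ π.darts, d.fst ∈ B ∨ d.snd ∈ B
        · have := ww_add_le_of_off h2 h3 π hoff hB
          linarith
        · have hnot : v i ∉ B := by
            intro hiB
            apply hB
            obtain ⟨d, hd, hd'⟩ := first_dart π hlen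
            exact ⟨d, hd, Or.inl (by rw [hd']; exact hiB)⟩
          have hi : i < 0 := by
            rcases lt_or_eq_of_le hi0 with h | h
            · exact h
            · rw [h] at hnot; exact absurd h0 hnot
          have := h4 i hi hnot
          linarith
      exact ⟨by linarith, fun _ _ => goal⟩
  intro n
  induction n with
  | zero =>
    intro i j x y π hx hy hlen
    cases π with
    | nil =>
      have : i = j := hinj (hx.symm.trans hy)
      subst this
      exact ⟨by simp [ww], fun _ _ => by omega⟩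
    | cons h π => simp at hlen
  | succ n ih =>
    intro i j x y π hx hy hlen
    cases π with
    | nil =>
      have : i = j := hinj (hx.symm.trans hy)
      subst this
      exact ⟨by simp [ww], fun _ _ => by omega⟩
    | cons h ρ =>
      rename_i z
      obtain ⟨c, ρ1, ρ2, e, ⟨l, hc⟩, hd⟩ := first_hit (fun x => ∃ l, x = v l) ρ ⟨j, hy⟩
      subst e
      have hlen2 : ρ2.length ≤ n := by
        rw [Walk.length_cons, Walk.length_append] at hlen
        omega
      obtain ⟨r1, r2⟩ := ih l j c y ρ2 hc hy hlen2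
      have hww : ww w' (Walk.cons h (ρ1.append ρ2)) = ww w' (Walk.cons h ρ1) + ww w' ρ2 := by
        rw [ww_cons, ww_cons, ww_append]; ring
      rw [hww]
      -- either a single edge of the path or a piece off the path
      by_cases hcase : ∀ d ∈ (Walk.cons h ρ1).darts, Off v d.fst d.snd
      · obtain ⟨q1, q2⟩ := piece i l x c (Walk.cons h ρ1) hx hc hcase (by simp)
        refine ⟨by linarith, fun hi hj he => ?_⟩
        rw [Walk.edges_cons, Walk.edges_append, List.mem_cons, List.mem_append] at he
        push Not at he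
        by_cases hl : 1 ≤ l
        · have := q2 hi hl
          linarith
        · have := r2 (by omega) hj he.2.2
          linarith
      · -- ρ1 is nil and the edge belongs to the path
        have hnil : ρ1.length = 0 := by
          by_contra hne
          apply hcase
          intro d hd' k hk
          have hz : ¬ ∃ l, z = v l := by
            cases ρ1 with
            | nil => simp at hne
            | cons h' ρ' => exact hd ⟨(_, _), h'⟩ (by simp)
          rw [Walk.darts_cons, List.mem_cons] at hd'
          have hends : ∀ u : V, u ∈ s(v k, v (k + 1)) → ∃ l, u = v l := by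
            intro u hu
            rw [Sym2.mem_iff] at hu
            rcases hu with rfl | rfl
            · exact ⟨_, rfl⟩
            · exact ⟨_, rfl⟩
          rcases hd' with rfl | hd'
          · apply hz
            apply hends
            rw [← hk]
            simp
          · apply hd d hd'
            apply hends
            rw [← hk]
            simp
        cases ρ1 with
        | cons h' ρ' => simp at hnil
        | nil =>
          have hk : ∃ k, s(x, z) = s(v k, v (k + 1)) := by
            by_contra hcon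
            push Not at hcon
            apply hcase
            intro d hd'
            rw [Walk.darts_cons, List.mem_cons] at hd'
            rcases hd' with rfl | hd'
            · exact hcon
            · simp at hd'
          obtain ⟨k, hk⟩ := hk
          rw [ww_cons, ww_nil, add_zero]
          have hpos := (hw'.pos _ _ h).le
          rw [Sym2.eq_iff] at hk
          rcases hk with ⟨hk1, hk2⟩ | ⟨hk1, hk2⟩
          · have ek : i = k := hinj (hx.symm.trans hk1)
            have el : l = k + 1 := hinj (hc.symm.trans hk2)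
            subst ek; subst el
            have hstep : P' (i + 1) - P' i = w' x z := by
              rw [hP' i, hk1, hk2]; ring
            refine ⟨by linarith, fun hi hj he => ?_⟩
            rw [Walk.edges_cons, Walk.edges_append, List.mem_cons, List.mem_append] at he
            push Not at he
            by_cases hi1 : i = 0
            · subst hi1
              exact absurd (by rw [hk1, hk2]; simp) he.1
            · have := r2 (by omega) hj he.2.2
              linarith
          · have ek : i = k + 1 := hinj (hx.symm.trans hk1)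
            have el : l = k := hinj (hc.symm.trans hk2)
            subst ek; subst el
            have hstep : P' l ≤ P' (l + 1) := hP'.mono hw' hadj (by omega)
            refine ⟨by linarith, fun hi hj he => ?_⟩
            rw [Walk.edges_cons, Walk.edges_append, List.mem_cons, List.mem_append] at he
            push Not at he
            have := r2 (by omega) hj he.2.2
            linarith

end Vale.Agent.P158.T1
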