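import Vale.Agent.P158.T1.Robust

/-! Robust bigeodesics: finite energy. -/

namespace Vale.Agent.P158.T1

open SimpleGraph MeasureTheory Filter

variable {G : Measure ℝ} [IsProbabilityMeasure G]

/-- A bigeodesic whose edge at `0` is heavy and cannot be avoided cheaply. -/
def Rob (β : ℝ) (w : V → V → ℝ) (v : ℤ → V) : Prop :=
  β ≤ w (v 0) (v 1) ∧ ∀ i j : ℤ, i ≤ 0 → 1 ≤ j → ∀ π : latt.Walk (v i) (v j),
    s(v 0, v 1) ∉ π.edges → T w (v i) (v j) + 1 ≤ ww w π

theorem isBi_of_core {w' : V → V → ℝ} {v : ℤ → V} {P' : ℤ → ℝ} (hw' : Adm w')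
    (hadj : ∀ k, latt.Adj (v k) (v (k + 1))) (hP' : PosF w' v P')
    (h : ∀ (i j : ℤ) (π : latt.Walk (v i) (v j)), P' j - P' i ≤ ww w' π) : IsBi w' v := by
  intro n
  have ha : ∀ i : ℕ, latt.Adj (v (n + (i : ℤ))) (v (n + ((i + 1 : ℕ) : ℤ))) := fun i => by
    have := hadj (n + i)
    push_cast
    rwa [← add_assoc]
  refine ⟨ha, fun k => ?_⟩
  have e1 : ∑ i ∈ Finset.range k, w' (v (n + (i : ℤ))) (v (n + ((i + 1 : ℕ) : ℤ))) =
      P' (n + k) - P' n := by
    rw [hP'.add n k, add_sub_cancel_left]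
    refine Finset.sum_congr rfl fun l _ => ?_
    have e : n + ((l + 1 : ℕ) : ℤ) = n + l + 1 := by push_cast; ring
    rw [e]
  have e2 : T w' (v (n + ((0 : ℕ) : ℤ))) (v (n + k)) ≤ ∑ i ∈ Finset.range k,
      w' (v (n + (i : ℤ))) (v (n + ((i + 1 : ℕ) : ℤ))) := by
    have := T_le_sum (r := fun i : ℕ => v (n + (i : ℤ))) hw' ha (i := 0) (j := k) (Nat.zero_le k)
    simpa using this
  refine le_antisymm ?_ e2
  change ∑ i ∈ Finset.range k, w' (v (n + (i : ℤ))) (v (n + ((i + 1 : ℕ) : ℤ))) ≤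
    T w' (v (n + ((0 : ℕ) : ℤ))) (v (n + k))
  rw [e1]
  refine le_PT (conn_univ _ _) fun p _ => ?_
  have := h (n + ((0 : ℕ) : ℤ)) (n + k) p
  simpa using this

/-- Resampling one edge. -/
theorem ae_update {A : Env → Prop} (h : ∀ᵐ t ∂PG G, A t) (e : latt.edgeSet) :
    ∀ᵐ t ∂PG G, ∀ᵐ s ∂G, A (Function.update t e s) := by
  have h1 := (mp_update (G := G) e).quasiMeasurePreserving.ae h
  exact Measure.ae_ae_of_ae_prod h1

/-- Resampling finitely many edges into prescribed windows. -/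
theorem multi_update (hfull : ∀ a b : ℝ, 0 ≤ a → a < b → 0 < G (Set.Ioo a b))
    (Λ : Finset latt.edgeSet) : ∀ {A : Env → Prop}, (∀ᵐ t ∂PG G, A t) →
    ∀ᵐ t ∂PG G, ∀ lo hi : latt.edgeSet → ℝ, (∀ e, 0 ≤ lo e ∧ lo e < hi e) →
      ∃ t' : Env, (∀ e, e ∉ Λ → t' e = t e) ∧ (∀ e ∈ Λ, lo e < t' e ∧ t' e < hi e) ∧ A t' := by
  classical
  induction Λ using Finset.induction_on with
  | empty =>
    intro A h
    filter_upwards [h] with t ht lo hi _
    exact ⟨t, fun _ _ => rfl, by simp, ht⟩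
  | insert e Λ he ih =>
    intro A h
    have h1 : ∀ᵐ t ∂PG G, ∀ a b : ℝ, 0 ≤ a → a < b →
        ∃ s, a < s ∧ s < b ∧ A (Function.update t e s) := by
      filter_upwards [ae_update h e] with t ht a b ha hab
      by_contra hcon
      push Not at hcon
      have : G (Set.Ioo a b) = 0 := by
        refine measure_mono_null ?_ (ae_iff.1 ht)
        intro s hs
        exact hcon s hs.1 hs.2
      exact absurd this (hfull a b ha hab).ne'
    filter_upwards [ih h1] with t ht lo hi hlh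
    obtain ⟨t', h2, h3, h4⟩ := ht lo hi hlh
    obtain ⟨s, hs1, hs2, hs3⟩ := h4 (lo e) (hi e) (hlh e).1 (hlh e).2
    refine ⟨Function.update t' e s, fun f hf => ?_, fun f hf => ?_, hs3⟩
    · rw [Finset.mem_insert] at hf
      push Not at hf
      rw [Function.update_of_ne hf.1]
      exact h2 f hf.2
    · rw [Finset.mem_insert] at hf
      by_cases hfe : f = e
      · subst hfe
        rw [Function.update_self]
        exact ⟨hs1, hs2⟩
      · rw [Function.update_of_ne hfe]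
        exact h3 f (hf.resolve_left hfe)

theorem finite_touch {B : Set V} (hB : B.Finite) :
    {e : latt.edgeSet | ∃ x ∈ B, x ∈ e.1}.Finite := by
  have h1 : (⋃ x ∈ B, (fun y : V => s(x, y)) '' (Set.Icc (x - (1, 1)) (x + (1, 1)))).Finite := by
    refine hB.biUnion fun x _ => (Set.finite_Icc _ _).image _
  refine (h1.preimage (f := (Subtype.val : latt.edgeSet → Sym2 V))
    Subtype.val_injective.injOn).subset ?_
  rintro ⟨e, he⟩ ⟨x, hx, hxe⟩
  obtain ⟨y, rfl⟩ := hxe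
  have hadj : latt.Adj x y := he
  simp only [Set.preimage_iUnion, Set.mem_iUnion, Set.mem_preimage, Set.mem_image, Set.mem_Icc]
  refine ⟨x, hx, y, ?_, rfl⟩
  have h3 : |x.1 - y.1| + |x.2 - y.2| = 1 := hadj
  have a1 := abs_nonneg (x.1 - y.1)
  have a2 := abs_nonneg (x.2 - y.2)
  have b1 := abs_le.1 (by omega : |x.1 - y.1| ≤ 1)
  have b2 := abs_le.1 (by omega : |x.2 - y.2| ≤ 1)
  constructor
  · constructor
    · show x.1 - 1 ≤ y.1
      omega
    · show x.2 - 1 ≤ y.2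
      omega
  · constructor
    · show y.1 ≤ x.1 + 1
      omega
    · show y.2 ≤ x.2 + 1
      omega

/-- Number of consecutive indices with values in a finite set. -/
theorem last_exit {v : ℤ → V} (hinj : Function.Injective v) {B : Set V} (hB : B.Finite)
    (h0 : v 0 ∈ B) {k : ℤ} (hk : k < 0) (hkB : v k ∉ B) :
    ∃ n : ℕ, k ≤ -((n : ℤ) + 1) ∧ v (-((n : ℤ) + 1)) ∉ B ∧
      (∀ l : ℤ, -((n : ℤ) + 1) < l → l ≤ 0 → v l ∈ B) ∧ n + 1 ≤ hB.toFinset.card := by
  classical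
  have hex : ∃ n : ℕ, v (-((n : ℤ) + 1)) ∉ B := ⟨(-k - 1).toNat, by
    have : -(((-k - 1).toNat : ℤ) + 1) = k := by omega
    rw [this]; exact hkB⟩
  have hmin : ∀ m : ℕ, m < Nat.find hex → v (-((m : ℤ) + 1)) ∈ B := fun m hm => by
    have := Nat.find_min hex hm
    exact not_not.1 this
  have hall : ∀ l : ℤ, -((Nat.find hex : ℤ) + 1) < l → l ≤ 0 → v l ∈ B := by
    intro l h1 h2
    rcases eq_or_lt_of_le h2 with h | h
    · rw [h]; exact h0
    · have := hmin (-l - 1).toNat (by omega)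
      have e : -(((-l - 1).toNat : ℤ) + 1) = l := by omega
      rwa [e] at this
  refine ⟨Nat.find hex, ?_, Nat.find_spec hex, hall, ?_⟩
  · have : Nat.find hex ≤ (-k - 1).toNat := Nat.find_min' hex (by
      have : -(((-k - 1).toNat : ℤ) + 1) = k := by omega
      rw [this]; exact hkB)
    omega
  · have h1 : (Finset.Ioc (-((Nat.find hex : ℤ) + 1)) 0).image v ⊆ hB.toFinset := by
      intro x hx
      rw [Finset.mem_image] at hx
      obtain ⟨l, hl, rfl⟩ := hx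
      rw [Finset.mem_Ioc] at hl
      rw [Set.Finite.mem_toFinset]
      exact hall l hl.1 hl.2
    have h2 := Finset.card_le_card h1
    rw [Finset.card_image_of_injective _ hinj, Int.card_Ioc] at h2
    omega

theorem rob_of_change {w w' : V → V → ℝ} (hw : Adm w) (hw' : Adm w') {v : ℤ → V}
    (hv : IsBi w v) {B : Set V} (hB : B.Finite) (h0 : v 0 ∈ B) {β η K : ℝ} (_hβ : 0 ≤ β)
    (hD : ∀ z, z ∉ B → β + 3 < T w (v 0) z)
    (hη : η * (hB.toFinset.card : ℝ) ≤ 1)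
    (hK : ∀ x y, latt.Adj x y → (x ∈ B ∨ y ∈ B) → w x y ≤ K)
    (hηw : ∀ x y, latt.Adj x y → (x ∈ B ∨ y ∈ B) → η ≤ w x y)
    (hout : ∀ x y, latt.Adj x y → x ∉ B → y ∉ B → w' x y = w x y)
    (he : β ≤ w' (v 0) (v 1)) (he' : w' (v 0) (v 1) ≤ β + 1)
    (hin : ∀ k, k ≠ 0 → (v k ∈ B ∨ v (k + 1) ∈ B) → w' (v k) (v (k + 1)) ≤ η)
    (hoff : ∀ x y, latt.Adj x y → Off v x y → (x ∈ B ∨ y ∈ B) → K + (β + 2) ≤ w' x y) :
    IsBi w' v ∧ Rob β w' v := by
  obtain ⟨P, hP⟩ := exists_posF w v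
  obtain ⟨P', hP'⟩ := exists_posF w' v
  have hinj := isBi_inj hw hv
  have hadj := isBi_adj hv
  have h1 : ∀ k, k ≠ 0 → w' (v k) (v (k + 1)) ≤ w (v k) (v (k + 1)) := by
    intro k hk
    by_cases hkB : v k ∈ B ∨ v (k + 1) ∈ B
    · exact (hin k hk hkB).trans (hηw _ _ (hadj k) hkB)
    · push Not at hkB
      exact (hout _ _ (hadj k) hkB.1 hkB.2).le
  have h2 : ∀ x y, latt.Adj x y → Off v x y → w x y ≤ w' x y := by
    intro x y hxy ho
    by_cases hB' : x ∈ B ∨ y ∈ B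
    · have a1 := hK x y hxy hB'
      have a2 := hoff x y hxy ho hB'
      linarith
    · push Not at hB'
      exact (hout _ _ hxy hB'.1 hB'.2).ge
  have h3 : ∀ x y, latt.Adj x y → Off v x y → (x ∈ B ∨ y ∈ B) → w x y + (β + 2) ≤ w' x y := by
    intro x y hxy ho hB'
    have a1 := hK x y hxy hB'
    have a2 := hoff x y hxy ho hB'
    linarith
  have h4 : ∀ k < 0, v k ∉ B → P' 0 - P' k + (β + 2) ≤ P 0 - P k := by
    intro k hk hkB
    obtain ⟨n, hn1, hn2, hn3, hn4⟩ := last_exit hinj hB h0 hk hkB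
    have a1 : P' 0 = P' (-((n : ℤ) + 1)) + ∑ l ∈ Finset.range (n + 1),
        w' (v (-((n : ℤ) + 1) + l)) (v (-((n : ℤ) + 1) + l + 1)) := by
      rw [← hP'.add]
      congr 1
      push_cast; ring
    have a2 : ∑ l ∈ Finset.range (n + 1),
        w' (v (-((n : ℤ) + 1) + l)) (v (-((n : ℤ) + 1) + l + 1)) ≤ 1 := by
      have : ∑ l ∈ Finset.range (n + 1),
          w' (v (-((n : ℤ) + 1) + l)) (v (-((n : ℤ) + 1) + l + 1)) ≤
          ∑ l ∈ Finset.range (n + 1), η := by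
        refine Finset.sum_le_sum fun l hl => ?_
        rw [Finset.mem_range] at hl
        exact hin _ (by omega) (Or.inr (hn3 _ (by omega) (by omega)))
      rw [Finset.sum_const, Finset.card_range, nsmul_eq_mul] at this
      have hη0 : 0 ≤ η := by
        have := hw'.pos _ _ (hadj (-1))
        have b := hin (-1) (by omega) (Or.inr (by simpa using h0))
        linarith
      have : ((n + 1 : ℕ) : ℝ) * η ≤ (hB.toFinset.card : ℝ) * η :=
        mul_le_mul_of_nonneg_right (by exact_mod_cast hn4) hη0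
      linarith [mul_comm η (hB.toFinset.card : ℝ)]
    have a3 := isBi_T hv hP (show -((n : ℤ) + 1) ≤ 0 by omega)
    have a4 := hD _ hn2
    rw [T_comm hw, a3] at a4
    obtain ⟨m, hm⟩ := Int.le.dest hn1
    have a5 : P' (-((n : ℤ) + 1)) - P' k ≤ P (-((n : ℤ) + 1)) - P k := by
      rw [← hm, hP.add k m, hP'.add k m]
      have : ∑ l ∈ Finset.range m, w' (v (k + l)) (v (k + l + 1)) ≤
          ∑ l ∈ Finset.range m, w (v (k + l)) (v (k + l + 1)) := by
        refine Finset.sum_le_sum fun l hl => h1 _ ?_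
        rw [Finset.mem_range] at hl
        omega
      linarith
    linarith
  have hpos0 := (hw.pos _ _ (by simpa using hadj 0 : latt.Adj (v 0) (v 1))).le
  have core := robust_core hw hw' hv h0 hP hP' h1 h2 h3 h4 (by linarith)
  have hbi : IsBi w' v := isBi_of_core hw' hadj hP' fun i j π =>
    (core π.length i j _ _ π rfl rfl le_rfl).1
  refine ⟨hbi, he, fun i j hi hj π hπ => ?_⟩
  rw [isBi_T hbi hP' (by omega : i ≤ j)]
  exact (core π.length i j _ _ π rfl rfl le_rfl).2 hi hj hπ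

theorem wt_mk (s : Env) {x y : V} (hxy : latt.Adj x y) : wt s x y = s ⟨s(x, y), hxy⟩ := by
  unfold wt; rw [dif_pos hxy]

theorem env_pos {t : Env} (hw : Adm (wt t)) (e : latt.edgeSet) : 0 < t e := by
  obtain ⟨e, he⟩ := e
  induction e using Sym2.ind with
  | _ x y =>
    have hxy : latt.Adj x y := he
    have := hw.pos x y hxy
    rwa [wt_mk t hxy] at this

theorem consts {t : Env} (hw : Adm (wt t)) (Λ : Finset latt.edgeSet) (N : ℕ) :
    ∃ K c : ℝ, 0 ≤ K ∧ 0 < c ∧ (N : ℝ) ≤ c ∧ (∀ e ∈ Λ, t e ≤ K) ∧ (∀ e ∈ Λ, 1 / c ≤ t e) := by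
  classical
  obtain ⟨K, hK⟩ := Finset.exists_le (Λ.image t)
  obtain ⟨K1, hK1⟩ := Finset.exists_le (Λ.image fun e => 1 / t e)
  have hN : (0 : ℝ) ≤ N := Nat.cast_nonneg _
  have ha := abs_nonneg K1
  have hc0 : 0 < |K1| + N + 1 := by linarith
  refine ⟨|K|, |K1| + N + 1, abs_nonneg _, hc0, by linarith, fun e he =>
    (hK _ (Finset.mem_image_of_mem _ he)).trans (le_abs_self _), fun e he => ?_⟩
  have h1 := hK1 _ (Finset.mem_image_of_mem _ he)
  have hp := env_pos hw e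
  have h2 : 1 / t e ≤ |K1| + N + 1 := by
    have := le_abs_self K1
    linarith
  rw [div_le_iff₀ hp] at h2
  rw [div_le_iff₀ hc0]
  linarith

theorem windows {t : Env} (hw : Adm (wt t)) {v : ℤ → V} (hv : IsBi (wt t) v) {β : ℝ}
    (hβ : 0 ≤ β) (hfb : {z | T (wt t) (v 0) z ≤ β + 3}.Finite) :
    ∃ (Λ : Finset latt.edgeSet) (lo hi : latt.edgeSet → ℝ), (∀ e, 0 ≤ lo e ∧ lo e < hi e) ∧
      ∀ t' : Env, Adm (wt t') → (∀ e, e ∉ Λ → t' e = t e) →
        (∀ e ∈ Λ, lo e < t' e ∧ t' e < hi e) → IsBi (wt t') v ∧ Rob β (wt t') v := by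
  classical
  have hinj := isBi_inj hw hv
  have hadj := isBi_adj hv
  set B : Set V := {z | T (wt t) (v 0) z ≤ β + 3} with hBdef
  have h0B : v 0 ∈ B := by
    show T (wt t) (v 0) (v 0) ≤ β + 3
    rw [T_self hw]; linarith
  obtain ⟨Λ, hmem⟩ : ∃ Λ : Finset latt.edgeSet, ∀ e, e ∈ Λ ↔ ∃ x ∈ B, x ∈ e.1 :=
    ⟨(finite_touch hfb).toFinset, fun e => by rw [Set.Finite.mem_toFinset]; rfl⟩
  obtain ⟨K, c, hK0, hc0, hcN, hK, hc⟩ := consts hw Λ hfb.toFinset.card
  have hmem' : ∀ {x y : V} (hxy : latt.Adj x y), (x ∈ B ∨ y ∈ B) →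
      (⟨s(x, y), hxy⟩ : latt.edgeSet) ∈ Λ := by
    intro x y hxy hB'
    rw [hmem]
    rcases hB' with hx | hy
    · exact ⟨x, hx, by simp⟩
    · exact ⟨y, hy, by simp⟩
  have hadj0 : latt.Adj (v 0) (v 1) := by simpa using hadj 0
  refine ⟨Λ, fun e => if e.1 = s(v 0, v 1) then β else
      if ∃ k, e.1 = s(v k, v (k + 1)) then 0 else K + (β + 2),
    fun e => if e.1 = s(v 0, v 1) then β + 1 else
      if ∃ k, e.1 = s(v k, v (k + 1)) then 1 / c else K + (β + 2) + 1, fun e => ?_,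
    fun t' hw' ht1 ht2 => ?_⟩
  · show 0 ≤ (if e.1 = s(v 0, v 1) then β else
      if ∃ k, e.1 = s(v k, v (k + 1)) then 0 else K + (β + 2)) ∧
      (if e.1 = s(v 0, v 1) then β else
      if ∃ k, e.1 = s(v k, v (k + 1)) then 0 else K + (β + 2)) <
      (if e.1 = s(v 0, v 1) then β + 1 else
      if ∃ k, e.1 = s(v k, v (k + 1)) then 1 / c else K + (β + 2) + 1)
    split_ifs
    · exact ⟨hβ, by linarith⟩
    · exact ⟨le_rfl, by positivity⟩
    · exact ⟨by linarith, by linarith⟩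
  · have ht0 := ht2 ⟨s(v 0, v 1), hadj0⟩ (hmem' hadj0 (Or.inl h0B))
    simp only [if_true] at ht0
    refine rob_of_change (η := 1 / c) (K := K) hw hw' hv hfb h0B hβ
      (fun z hz => not_le.1 hz) ?_ ?_ ?_ ?_ ?_ ?_ ?_ ?_
    · rw [div_mul_eq_mul_div, one_mul, div_le_one hc0]
      exact hcN
    · intro x y hxy hB'
      rw [wt_mk t hxy]
      exact hK _ (hmem' hxy hB')
    · intro x y hxy hB'
      rw [wt_mk t hxy]
      exact hc _ (hmem' hxy hB')
    · intro x y hxy hx hy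
      rw [wt_mk t hxy, wt_mk t' hxy]
      refine ht1 _ fun hcon => ?_
      rw [hmem] at hcon
      obtain ⟨z, hz, hze⟩ := hcon
      rw [Sym2.mem_iff] at hze
      rcases hze with rfl | rfl
      · exact hx hz
      · exact hy hz
    · rw [wt_mk t' hadj0]; exact ht0.1.le
    · rw [wt_mk t' hadj0]; exact ht0.2.le
    · intro k hk hkB
      rw [wt_mk t' (hadj k)]
      have h1 := (ht2 _ (hmem' (hadj k) hkB)).2
      have hne : ¬ (s(v k, v (k + 1)) : Sym2 V) = s(v 0, v 1) := by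
        intro hcon
        rw [Sym2.eq_iff] at hcon
        rcases hcon with ⟨c1, c2⟩ | ⟨c1, c2⟩
        · exact hk (hinj c1)
        · have d1 := hinj c1
          have d2 := hinj c2
          omega
      beta_reduce at h1
      rw [if_neg hne, if_pos ⟨k, rfl⟩] at h1
      exact h1.le
    · intro x y hxy ho hB'
      rw [wt_mk t' hxy]
      have h1 := (ht2 _ (hmem' hxy hB')).1
      have hne : ¬ (s(x, y) : Sym2 V) = s(v 0, v 1) := fun hcon => ho 0 (by simpa using hcon)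
      have hne2 : ¬ ∃ l, (s(x, y) : Sym2 V) = s(v l, v (l + 1)) := fun ⟨l, hl⟩ => ho l hl
      beta_reduce at h1
      rw [if_neg hne, if_neg hne2] at h1
      exact h1.le

/-- If robust bigeodesics of a class do not exist, then the class is empty. -/
theorem robust_ae [NullSingletonClass G] (hG : G (Set.Iio 0) = 0)
    (hfull : ∀ a b : ℝ, 0 ≤ a → a < b → 0 < G (Set.Ioo a b)) {β : ℝ} (hβ : 0 ≤ β)
    (Q : (ℤ → V) → Prop)
    (hFB : ∀ᵐ t ∂PG G, ∀ D : ℝ, {z | T (wt t) 0 z ≤ D}.Finite)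
    (h : ∀ᵐ t ∂PG G, ∀ v, IsBi (wt t) v → v 0 = 0 → Q v → ¬ Rob β (wt t) v) :
    ∀ᵐ t ∂PG G, ∀ v, IsBi (wt t) v → v 0 = 0 → ¬ Q v := by
  have hA := (ae_adm hG).and h
  have hm : ∀ᵐ t ∂PG G, ∀ Λ : Finset latt.edgeSet, ∀ lo hi : latt.edgeSet → ℝ,
      (∀ e, 0 ≤ lo e ∧ lo e < hi e) → ∃ t' : Env, (∀ e, e ∉ Λ → t' e = t e) ∧
        (∀ e ∈ Λ, lo e < t' e ∧ t' e < hi e) ∧ (Adm (wt t') ∧
          ∀ v, IsBi (wt t') v → v 0 = 0 → Q v → ¬ Rob β (wt t') v) :=
    ae_all_iff.2 fun Λ => multi_update hfull Λ hA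
  filter_upwards [ae_adm hG, hFB, hm] with t hw hfb hmt v hv hv0 hQ
  have hf : {z | T (wt t) (v 0) z ≤ β + 3}.Finite := by rw [hv0]; exact hfb _
  obtain ⟨Λ, lo, hi, hlh, hwin⟩ := windows hw hv hβ hf
  obtain ⟨t', ht1, ht2, hw', hno⟩ := hmt Λ lo hi hlh
  obtain ⟨hbi, hrob⟩ := hwin t' hw' ht1 ht2
  exact hno v hbi hv0 hQ hrob

end Vale.Agent.P158.T1
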