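import Mathlib.MeasureTheory.Integral.Marginal
import Mathlib.MeasureTheory.Integral.MeanInequalities
import Mathlib.MeasureTheory.Constructions.BorelSpace.Real
import Mathlib.MeasureTheory.Measure.Typeclasses.Probability

/-! M4: sequential `L²` comparison of laws. -/

namespace Vale.Agent.P158.T1

open MeasureTheory Function
open scoped ENNReal

variable {δ : Type*} [DecidableEq δ]

/-- The exploration: `n` further steps, `A` = explored coordinates, `τ` = current configuration,
`t` = raw configuration. -/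
def go (nxt : (δ → ℝ) → Finset δ → δ) (psi : (δ → ℝ) → Finset δ → ℝ → ℝ) (t : δ → ℝ) :
    ℕ → Finset δ → (δ → ℝ) → (δ → ℝ)
  | 0, _, τ => τ
  | n + 1, A, τ => go nxt psi t n (insert (nxt t A) A)
      (update τ (nxt t A) (psi t A (t (nxt t A))))

/-- The transformed configuration. -/
def run (nxt : (δ → ℝ) → Finset δ → δ) (psi : (δ → ℝ) → Finset δ → ℝ → ℝ) (B : Finset δ)
    (t : δ → ℝ) : δ → ℝ := go nxt psi t B.card ∅ t

/-- A predictable strategy exploring `B`. -/
structure Strat (G : Measure ℝ) (B : Finset δ) (b : ℕ → ℝ≥0∞)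
    (nxt : (δ → ℝ) → Finset δ → δ) (psi : (δ → ℝ) → Finset δ → ℝ → ℝ) : Prop where
  mem : ∀ t A, A ⊆ B → A ≠ B → nxt t A ∈ B \ A
  nxt_congr : ∀ A, A ⊆ B → A ≠ B → ∀ t t' : δ → ℝ, (∀ i, i ∉ B \ A → t i = t' i) →
    nxt t A = nxt t' A
  psi_congr : ∀ A, A ⊆ B → A ≠ B → ∀ t t' : δ → ℝ, (∀ i, i ∉ B \ A → t i = t' i) →
    psi t A = psi t' A
  nxt_meas : ∀ A, A ⊆ B → A ≠ B → ∀ e, MeasurableSet {t : δ → ℝ | nxt t A = e}
  psi_meas : ∀ A, A ⊆ B → A ≠ B → Measurable fun p : (δ → ℝ) × ℝ => psi p.1 A p.2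
  ineq : ∀ t A, A ⊆ B → A ≠ B → ∀ g : ℝ → ℝ≥0∞, Measurable g →
    ∫⁻ s, g (psi t A s) ∂G ≤ (b A.card * ∫⁻ s, g s ^ 2 ∂G) ^ (1 / 2 : ℝ)

variable {G : Measure ℝ} {B : Finset δ} {b : ℕ → ℝ≥0∞}
  {nxt : (δ → ℝ) → Finset δ → δ} {psi : (δ → ℝ) → Finset δ → ℝ → ℝ}

theorem sdiff_insert_eq {A : Finset δ} {e : δ} (he : e ∈ B \ A) :
    B \ A = insert e (B \ insert e A) := by
  ext i
  simp only [Finset.mem_sdiff, Finset.mem_insert] at he ⊢
  constructor
  · rintro ⟨h1, h2⟩
    by_cases h : i = e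
    · exact Or.inl h
    · exact Or.inr ⟨h1, by rintro (h' | h') <;> tauto⟩
  · rintro (rfl | ⟨h1, h2⟩)
    · exact he
    · exact ⟨h1, fun h => h2 (Or.inr h)⟩

theorem Strat.step (h : Strat G B b nxt psi) {A : Finset δ} (hA : A ⊆ B) {n : ℕ}
    (hn : (B \ A).card = n + 1) (t : δ → ℝ) :
    A ≠ B ∧ nxt t A ∈ B \ A ∧ insert (nxt t A) A ⊆ B ∧ (B \ insert (nxt t A) A).card = n ∧
      (insert (nxt t A) A).card = A.card + 1 := by
  have hAB : A ≠ B := by
    rintro rfl
    simp at hn
  have hm := h.mem t A hA hAB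
  have hm' := Finset.mem_sdiff.1 hm
  refine ⟨hAB, hm, Finset.insert_subset hm'.1 hA, ?_, Finset.card_insert_of_notMem hm'.2⟩
  have h1 := sdiff_insert_eq hm
  have h2 : nxt t A ∉ B \ insert (nxt t A) A := by simp
  rw [h1, Finset.card_insert_of_notMem h2] at hn
  omega

theorem Strat.measurable_go (h : Strat G B b nxt psi) : ∀ (n : ℕ) (A : Finset δ), A ⊆ B →
    (B \ A).card = n →
    Measurable fun p : (δ → ℝ) × (δ → ℝ) => go nxt psi p.1 n A p.2 := by
  intro n
  induction n with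
  | zero => intro A _ _; simp only [go]; exact measurable_snd
  | succ n ih =>
    intro A hA hn
    have hAB : A ≠ B := by
      rintro rfl
      simp at hn
    have key : ∀ e ∈ B \ A, Measurable fun p : (δ → ℝ) × (δ → ℝ) =>
        go nxt psi p.1 n (insert e A) (update p.2 e (psi p.1 A (p.1 e))) := by
      intro e he
      have he' := Finset.mem_sdiff.1 he
      have hc : (B \ insert e A).card = n := by
        have h1 := sdiff_insert_eq he
        have h2 : e ∉ B \ insert e A := by simp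
        rw [h1, Finset.card_insert_of_notMem h2] at hn
        omega
      have h3 : Measurable fun p : (δ → ℝ) × (δ → ℝ) => psi p.1 A (p.1 e) :=
        (h.psi_meas A hA hAB).comp
          (measurable_fst.prodMk ((measurable_pi_apply e).comp measurable_fst))
      have h4 : Measurable fun p : (δ → ℝ) × (δ → ℝ) =>
          (p.1, update p.2 e (psi p.1 A (p.1 e))) := by
        refine measurable_fst.prodMk (measurable_pi_lambda _ fun i => ?_)
        by_cases hi : i = e
        · subst hi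
          simp only [update_self]
          exact h3
        · simp only [update_of_ne hi]
          exact (measurable_pi_apply i).comp measurable_snd
      exact (ih (insert e A) (Finset.insert_subset he'.1 hA) hc).comp h4
    intro C hC
    have e1 : (fun p : (δ → ℝ) × (δ → ℝ) => go nxt psi p.1 (n + 1) A p.2) ⁻¹' C =
        ⋃ e ∈ B \ A, ({p : (δ → ℝ) × (δ → ℝ) | nxt p.1 A = e} ∩
          (fun p : (δ → ℝ) × (δ → ℝ) =>
            go nxt psi p.1 n (insert e A) (update p.2 e (psi p.1 A (p.1 e)))) ⁻¹' C) := by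
      ext p
      simp only [Set.mem_preimage, Set.mem_iUnion, Set.mem_inter_iff, Set.mem_ofPred_eq, go,
        exists_prop]
      constructor
      · intro hp
        exact ⟨nxt p.1 A, h.mem p.1 A hA hAB, rfl, hp⟩
      · rintro ⟨e, -, rfl, hp⟩
        exact hp
    rw [e1]
    refine Finset.measurableSet_biUnion _ fun e he => ?_
    exact (measurable_fst (h.nxt_meas A hA hAB e)).inter (key e he hC)

theorem Strat.measurable_run (h : Strat G B b nxt psi) : Measurable (run nxt psi B) := by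
  have h1 := h.measurable_go B.card ∅ (Finset.empty_subset _) (by simp)
  exact h1.comp (measurable_id.prodMk measurable_id)

/-- The result of the exploration does not depend on the current values on `B \ A`. -/
theorem Strat.go_congr (h : Strat G B b nxt psi) (t : δ → ℝ) : ∀ (n : ℕ) (A : Finset δ), A ⊆ B →
    (B \ A).card = n → ∀ τ τ' : δ → ℝ, (∀ i, i ∉ B \ A → τ i = τ' i) →
    go nxt psi t n A τ = go nxt psi t n A τ' := by
  intro n
  induction n with
  | zero =>
    intro A _ hn τ τ' hτ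
    simp only [go]
    funext i
    refine hτ i ?_
    rw [Finset.card_eq_zero.1 hn]
    simp
  | succ n ih =>
    intro A hA hn τ τ' hτ
    obtain ⟨-, hm, hs, hc, -⟩ := h.step hA hn t
    simp only [go]
    refine ih _ hs hc _ _ fun i hi => ?_
    by_cases hie : i = nxt t A
    · subst hie; simp
    · rw [update_of_ne hie, update_of_ne hie]
      refine hτ i fun h' => hi ?_
      rw [sdiff_insert_eq hm, Finset.mem_insert] at h'
      exact h'.resolve_left hie

theorem lmarginal_congr_at {s : Finset δ} {f g : (δ → ℝ) → ℝ≥0∞} {x : δ → ℝ}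
    (hfg : ∀ y, (∀ i, i ∉ s → y i = x i) → f y = g y) :
    (∫⋯∫⁻_s, f ∂fun _ => G) x = (∫⋯∫⁻_s, g ∂fun _ => G) x := by
  unfold lmarginal
  refine lintegral_congr fun y => hfg _ fun i hi => ?_
  simp [updateFinset, hi]

/-- The sequential `L²` inequality, conditionally on the outside. -/
theorem Strat.lmarginal_go_le [SigmaFinite G] (h : Strat G B b nxt psi)
    {f : (δ → ℝ) → ℝ≥0∞} (hf : Measurable f) :
    ∀ (n : ℕ) (A : Finset δ), A ⊆ B → (B \ A).card = n → ∀ t τ : δ → ℝ,
    (∫⋯∫⁻_B \ A, (fun t' => f (go nxt psi t' n A τ)) ∂fun _ => G) t ≤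
      ((∏ j ∈ Finset.Ico A.card B.card, b j) *
        (∫⋯∫⁻_B \ A, (fun t' => f t' ^ 2) ∂fun _ => G) τ) ^ (1 / 2 : ℝ) := by
  intro n
  induction n with
  | zero =>
    intro A hA hn t τ
    have h0 : B \ A = ∅ := Finset.card_eq_zero.1 hn
    have hAB : A = B := Finset.Subset.antisymm hA (Finset.sdiff_eq_empty_iff_subset.1 h0)
    subst hAB
    rw [h0, lmarginal_empty, lmarginal_empty]
    simp only [go, Finset.Ico_self, Finset.prod_empty, one_mul]
    rw [← ENNReal.rpow_two, ← ENNReal.rpow_mul]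
    norm_num
  | succ n ih =>
    intro A hA hn t τ
    obtain ⟨hAB, hm, hs, hc, hcard⟩ := h.step hA hn t
    set e := nxt t A with he
    set A' := insert e A with hA'
    have hBA : B \ A = insert e (B \ A') := sdiff_insert_eq hm
    have heA' : e ∉ B \ A' := by simp [hA']
    have hmeas : Measurable fun t' => f (go nxt psi t' (n + 1) A τ) :=
      hf.comp ((h.measurable_go (n + 1) A hA hn).comp (measurable_id.prodMk measurable_const))
    rw [hBA, lmarginal_insert _ hmeas heA', lmarginal_insert _ (hf.pow_const 2) heA']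
    set P' : ℝ≥0∞ := ∏ j ∈ Finset.Ico A'.card B.card, b j with hP'
    have hprod : (∏ j ∈ Finset.Ico A.card B.card, b j) = b A.card * P' := by
      have h1 : A.card < B.card := by
        refine Finset.card_lt_card ⟨hA, fun h' => hAB (Finset.Subset.antisymm hA h')⟩
      rw [Finset.prod_eq_prod_Ico_succ_bot h1, hP', hcard]
    set Q : ℝ → ℝ≥0∞ := fun u =>
      (∫⋯∫⁻_B \ A', (fun t' => f t' ^ 2) ∂fun _ => G) (update τ e u) with hQ
    have hQm : Measurable Q :=
      ((hf.pow_const 2).lmarginal (fun _ => G)).comp (measurable_update τ)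
    have step1 : ∀ s : ℝ,
        (∫⋯∫⁻_B \ A', (fun t' => f (go nxt psi t' (n + 1) A τ)) ∂fun _ => G) (update t e s) ≤
          (P' * Q (psi t A s)) ^ (1 / 2 : ℝ) := by
      intro s
      have h1 : (∫⋯∫⁻_B \ A', (fun t' => f (go nxt psi t' (n + 1) A τ)) ∂fun _ => G)
          (update t e s) = (∫⋯∫⁻_B \ A',
            (fun t' => f (go nxt psi t' n A' (update τ e (psi t A s)))) ∂fun _ => G)
          (update t e s) := by
        refine lmarginal_congr_at fun y hy => ?_
        have hy' : ∀ i, i ∉ B \ A → y i = t i := by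
          intro i hi
          have hie : i ≠ e := fun h' => hi (h' ▸ hm)
          rw [hy i (fun h' => hi (by rw [hBA]; exact Finset.mem_insert_of_mem h')),
            update_of_ne hie]
        have hye : y e = s := by rw [hy e heA', update_self]
        simp only [go]
        rw [h.nxt_congr A hA hAB y t hy', h.psi_congr A hA hAB y t hy', ← he, hye]
      rw [h1]
      exact ih A' hs hc _ _
    have hgm : Measurable fun u => (P' * Q u) ^ (1 / 2 : ℝ) :=
      (hQm.const_mul P').pow_const _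
    calc (∫⁻ s, (∫⋯∫⁻_B \ A', (fun t' => f (go nxt psi t' (n + 1) A τ)) ∂fun _ => G)
          (update t e s) ∂G)
        ≤ ∫⁻ s, (P' * Q (psi t A s)) ^ (1 / 2 : ℝ) ∂G := lintegral_mono step1
      _ ≤ (b A.card * ∫⁻ s, ((P' * Q s) ^ (1 / 2 : ℝ)) ^ 2 ∂G) ^ (1 / 2 : ℝ) :=
          h.ineq t A hA hAB _ hgm
      _ = ((b A.card * P') * ∫⁻ s, Q s ∂G) ^ (1 / 2 : ℝ) := by
          have h2 : ∀ s, ((P' * Q s) ^ (1 / 2 : ℝ)) ^ 2 = P' * Q s := by
            intro s
            rw [← ENNReal.rpow_two, ← ENNReal.rpow_mul]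
            norm_num
          simp only [h2]
          rw [lintegral_const_mul _ hQm, mul_assoc]
      _ = _ := by rw [hprod]

theorem lintegral_sqrt_le {α : Type*} [MeasurableSpace α] (P : Measure α) [IsProbabilityMeasure P]
    {h : α → ℝ≥0∞} (hh : AEMeasurable h P) :
    ∫⁻ x, h x ^ (1 / 2 : ℝ) ∂P ≤ (∫⁻ x, h x ∂P) ^ (1 / 2 : ℝ) := by
  have h1 := ENNReal.lintegral_mul_le_Lp_mul_Lq P Real.HolderConjugate.two_two
    (hh.pow_const (1 / 2 : ℝ)) (aemeasurable_const (b := (1 : ℝ≥0∞)))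
  simp only [Pi.mul_apply, mul_one, ENNReal.one_rpow, lintegral_const, measure_univ] at h1
  refine h1.trans (le_of_eq ?_)
  congr 1
  refine lintegral_congr fun x => ?_
  rw [← ENNReal.rpow_mul]
  norm_num

/-- The sequential `L²` inequality at a fixed outside. -/
theorem Strat.lmarginal_run_le [SigmaFinite G] (h : Strat G B b nxt psi)
    {f : (δ → ℝ) → ℝ≥0∞} (hf : Measurable f) (t : δ → ℝ) :
    (∫⋯∫⁻_B, (fun t' => f (run nxt psi B t')) ∂fun _ => G) t ≤
      ((∏ j ∈ Finset.range B.card, b j) *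
        (∫⋯∫⁻_B, (fun t' => f t' ^ 2) ∂fun _ => G) t) ^ (1 / 2 : ℝ) := by
  have h1 := h.lmarginal_go_le hf B.card ∅ (Finset.empty_subset _) (by simp) t t
  simp only [Finset.sdiff_empty, Finset.card_empty, ← Finset.range_eq_Ico] at h1
  refine le_trans (le_of_eq ?_) h1
  refine lmarginal_congr_at fun y hy => ?_
  unfold run
  rw [h.go_congr y B.card ∅ (Finset.empty_subset _) (by simp) y t fun i hi => ?_]
  rw [Finset.sdiff_empty] at hi
  exact hy i hi

/-- **M4**: the sequential `L²` inequality. -/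
theorem Strat.lintegral_run_le [SigmaFinite G] (h : Strat G B b nxt psi)
    (P : Measure (δ → ℝ)) [IsProbabilityMeasure P]
    (hP : ∀ f : (δ → ℝ) → ℝ≥0∞, Measurable f →
      ∫⁻ t, f t ∂P = ∫⁻ t, (∫⋯∫⁻_B, f ∂fun _ => G) t ∂P)
    {f : (δ → ℝ) → ℝ≥0∞} (hf : Measurable f) :
    ∫⁻ t, f (run nxt psi B t) ∂P ≤
      ((∏ j ∈ Finset.range B.card, b j) * ∫⁻ t, f t ^ 2 ∂P) ^ (1 / 2 : ℝ) := by
  have hm : Measurable fun t => f (run nxt psi B t) := hf.comp h.measurable_run
  rw [hP _ hm, hP _ (hf.pow_const 2)]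
  have hm2 : Measurable (∫⋯∫⁻_B, (fun t' => f t' ^ 2) ∂fun _ => G) :=
    (hf.pow_const 2).lmarginal (fun _ => G)
  calc (∫⁻ t, (∫⋯∫⁻_B, (fun t => f (run nxt psi B t)) ∂fun _ => G) t ∂P)
      ≤ ∫⁻ t, ((∏ j ∈ Finset.range B.card, b j) *
        (∫⋯∫⁻_B, (fun t' => f t' ^ 2) ∂fun _ => G) t) ^ (1 / 2 : ℝ) ∂P :=
        lintegral_mono fun t => h.lmarginal_run_le hf t
    _ ≤ (∫⁻ t, (∏ j ∈ Finset.range B.card, b j) *
        (∫⋯∫⁻_B, (fun t' => f t' ^ 2) ∂fun _ => G) t ∂P) ^ (1 / 2 : ℝ) :=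
        lintegral_sqrt_le P (hm2.const_mul _).aemeasurable
    _ = _ := by rw [lintegral_const_mul _ hm2]

/-- **M4** for events. -/
theorem Strat.measure_run_le [SigmaFinite G] (h : Strat G B b nxt psi)
    (P : Measure (δ → ℝ)) [IsProbabilityMeasure P]
    (hP : ∀ f : (δ → ℝ) → ℝ≥0∞, Measurable f →
      ∫⁻ t, f t ∂P = ∫⁻ t, (∫⋯∫⁻_B, f ∂fun _ => G) t ∂P)
    {C : Set (δ → ℝ)} (hC : MeasurableSet C) :
    P {t | run nxt psi B t ∈ C} ≤
      ((∏ j ∈ Finset.range B.card, b j) * P C) ^ (1 / 2 : ℝ) := by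
  have h1 := h.lintegral_run_le P hP (f := C.indicator 1) (measurable_one.indicator hC)
  have h2 : ∀ t, (C.indicator (1 : (δ → ℝ) → ℝ≥0∞) t) ^ 2 = C.indicator 1 t := by
    intro t
    by_cases ht : t ∈ C <;> simp [ht]
  simp only [h2] at h1
  rw [lintegral_indicator_one hC] at h1
  have h3 : ∀ t, C.indicator (1 : (δ → ℝ) → ℝ≥0∞) (run nxt psi B t) =
      {t | run nxt psi B t ∈ C}.indicator 1 t := by
    intro t
    by_cases ht : run nxt psi B t ∈ C <;> simp [Set.indicator, ht]
  simp only [h3] at h1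
  have h4 : MeasurableSet {t | run nxt psi B t ∈ C} := h.measurable_run hC
  rwa [lintegral_indicator_one h4] at h1

end Vale.Agent.P158.T1
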